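import Mathlib

/-!
The final parameters: a curve whose speed is quadratic in a quantity with exponential memory.
-/

open Set Filter Topology

namespace Vale.Agent.P354PA

variable {Y : Type} (S : Set Y) (tm f : Y → ℝ) (e0 c0 : ℝ)

/-- A bounds the data and the root of f in the past of t + c0. -/
def Pa (t A : ℝ) : Prop :=
  e0 ≤ A * 2 ^ t ∧ ∀ y ∈ S, tm y ≤ t + c0 → f y ≤ (A * 2 ^ (t - tm y)) ^ 2

/-- Q bounds the sum of the suprema over the future slabs. -/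
def Ta (t Q : ℝ) : Prop :=
  ∃ n : ℕ → ℝ, (∀ j, 0 ≤ n j) ∧ (∀ k, ∑ j ∈ Finset.range k, n j ≤ Q) ∧
    ∀ y ∈ S, ∀ j : ℕ, t - c0 + j ≤ tm y → tm y ≤ t - c0 + j + 1 → f y ≤ n j

variable {S tm f e0 c0} {t s A A' Q : ℝ}

theorem Pa.mono (h : Pa S tm f e0 c0 t A) (h0 : 0 ≤ A) (hA : A ≤ A') : Pa S tm f e0 c0 t A' :=
  ⟨h.1.trans (by gcongr), fun y hy ht => (h.2 y hy ht).trans (by gcongr)⟩

theorem Ta.nn (h : Ta S tm f c0 t Q) : 0 ≤ Q := by
  obtain ⟨n, -, h, -⟩ := h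
  simpa using h 0

/-- The bounds on the unit intervals. -/
noncomputable def bk (A D : ℝ) (m : ℕ) (n : ℕ → ℝ) : ℕ → ℝ
  | 0 => A ^ 2 + D * ∑ j ∈ Finset.range m, n j
  | k + 1 => bk A D m n k / 4 + D * n (k + m)

variable {D : ℝ} {m : ℕ} {n : ℕ → ℝ}

theorem bk_nn (hD : 0 ≤ D) (hn : ∀ j, 0 ≤ n j) : ∀ k, 0 ≤ bk A D m n k
  | 0 => add_nonneg (sq_nonneg _) (mul_nonneg hD (Finset.sum_nonneg fun j _ => hn j))
  | k + 1 => add_nonneg (div_nonneg (bk_nn hD hn k) (by norm_num)) (mul_nonneg hD (hn _))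

theorem bk_sum (hD : 0 ≤ D) (hn : ∀ j, 0 ≤ n j) (hQ : ∀ k, ∑ j ∈ Finset.range k, n j ≤ Q) :
    ∀ K, ∑ k ∈ Finset.range K, bk A D m n k ≤ 2 * (A ^ 2 + D * Q)
  | 0 => by
    have : 0 ≤ Q := by simpa using hQ 0
    rw [Finset.sum_range_zero]; positivity
  | K + 1 => by
    have h := bk_sum hD hn hQ K
    have e := hQ (m + K)
    have q : 0 ≤ Q := by simpa using hQ 0
    rw [Finset.sum_range_add] at e
    rw [Finset.sum_range_succ']
    simp only [bk, Finset.sum_add_distrib, ← Finset.sum_div, ← Finset.mul_sum, add_comm _ m]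
    have := mul_le_mul_of_nonneg_left e hD
    nlinarith [sq_nonneg A, mul_nonneg hD q]

theorem four (x : ℝ) : ((2 : ℝ) ^ x) ^ 2 = 4 ^ x := by
  rw [← Real.rpow_natCast, ← Real.rpow_mul (by norm_num), mul_comm,
    Real.rpow_mul (by norm_num)]; norm_num

/-- The memory on the k-th interval. -/
theorem bk_past (hc : 0 ≤ c0) (hn : ∀ j, 0 ≤ n j) (h : Pa S tm f e0 c0 t A)
    (h' : ∀ y ∈ S, ∀ j : ℕ, t - c0 + j ≤ tm y → tm y ≤ t - c0 + j + 1 → f y ≤ n j) :
    ∀ k : ℕ, A ^ 2 ≤ bk A (4 ^ m) m n k * 4 ^ k ∧ ∀ y ∈ S, tm y < t - c0 + (k + m : ℕ) →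
      f y ≤ bk A (4 ^ m) m n k * 4 ^ (t + k - tm y) := by
  have key : ∀ (k j : ℕ) y, y ∈ S → t - c0 + j ≤ tm y → tm y ≤ t - c0 + j + 1 →
      tm y ≤ t + k + m → f y ≤ 4 ^ m * n j * 4 ^ (t + k - tm y) := fun k j y hy a b c => by
    refine (h' y hy j a b).trans ?_
    have : (1 : ℝ) ≤ 4 ^ m * 4 ^ (t + k - tm y) := by
      rw [← Real.rpow_natCast, ← Real.rpow_add (by norm_num)]
      exact Real.one_le_rpow (by norm_num) (by linarith)
    nlinarith [hn j]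
  have sn : 0 ≤ (4 : ℝ) ^ m * ∑ j ∈ Finset.range m, n j :=
    mul_nonneg (by positivity) (Finset.sum_nonneg fun j _ => hn j)
  intro k
  induction k with
  | zero =>
    refine ⟨by simpa [bk] using sn, fun y hy a => ?_⟩
    have p : (0 : ℝ) < 4 ^ (t + (0 : ℕ) - tm y) := by positivity
    rcases le_total (tm y) (t - c0) with b | b
    · have := h.2 y hy (by linarith)
      rw [mul_pow, four] at this
      simp only [bk, Nat.cast_zero, add_zero] at p ⊢
      nlinarith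
    · have c : 0 ≤ tm y - (t - c0) := by linarith
      have d : ⌊tm y - (t - c0)⌋₊ < m := (Nat.floor_lt c).2 (by push_cast at a; linarith)
      refine (key 0 ⌊tm y - (t - c0)⌋₊ y hy (by linarith [Nat.floor_le c])
        (by linarith [Nat.lt_floor_add_one (tm y - (t - c0))]) (by push_cast at a ⊢; linarith)).trans
        (mul_le_mul_of_nonneg_right ?_ p.le)
      have := Finset.single_le_sum (f := n) (fun j _ => hn j) (Finset.mem_range.2 d)
      have := mul_le_mul_of_nonneg_left this (show (0 : ℝ) ≤ 4 ^ m by positivity)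
      simp only [bk]
      nlinarith [sq_nonneg A]
  | succ k ih =>
    have b0 := bk_nn (A := A) (m := m) (show (0 : ℝ) ≤ 4 ^ m by positivity) hn k
    have n0 : 0 ≤ (4 : ℝ) ^ m * n (k + m) := mul_nonneg (by positivity) (hn _)
    refine ⟨ih.1.trans ?_, fun y hy a => ?_⟩
    · have : (0 : ℝ) < 4 ^ k := by positivity
      simp only [bk, pow_succ]
      nlinarith
    have p : (0 : ℝ) < 4 ^ (t + (k + 1 : ℕ) - tm y) := by positivity
    rcases lt_or_ge (tm y) (t - c0 + (k + m : ℕ)) with b | b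
    · refine (ih.2 y hy b).trans ?_
      have e : (4 : ℝ) ^ (t + (k + 1 : ℕ) - tm y) = 4 ^ (t + k - tm y) * 4 := by
        rw [← Real.rpow_add_one (by norm_num)]; congr 1; push_cast; ring
      simp only [bk]
      rw [e] at p ⊢
      nlinarith
    · refine (key (k + 1) (k + m) y hy b (by push_cast at a ⊢; linarith)
        (by push_cast at a ⊢; linarith)).trans (mul_le_mul_of_nonneg_right ?_ p.le)
      simp only [bk]
      linarith

theorem bk_pa (hc : 0 ≤ c0) (hm : 2 * c0 + 1 < m) (hn : ∀ j, 0 ≤ n j) (h : Pa S tm f e0 c0 t A)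
    (hA : 0 ≤ A)
    (h' : ∀ y ∈ S, ∀ j : ℕ, t - c0 + j ≤ tm y → tm y ≤ t - c0 + j + 1 → f y ≤ n j) (k : ℕ)
    (h1 : t + k ≤ s) (h2 : s ≤ t + k + 1) : Pa S tm f e0 c0 s √(bk A (4 ^ m) m n k) := by
  obtain ⟨a, b⟩ := bk_past (m := m) hc hn h h' k
  have b0 := bk_nn (A := A) (m := m) (show (0 : ℝ) ≤ 4 ^ m by positivity) hn k
  refine ⟨h.1.trans ?_, fun y hy c => (b y hy (by push_cast; linarith)).trans ?_⟩
  · refine (pow_le_pow_iff_left₀ (by positivity) (by positivity) two_ne_zero).1 ?_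
    rw [mul_pow, mul_pow, four, four, Real.sq_sqrt b0]
    calc _ ≤ bk A (4 ^ m) m n k * 4 ^ k * 4 ^ t := by gcongr
      _ = bk A (4 ^ m) m n k * 4 ^ (t + k) := by
        rw [Real.rpow_add (by norm_num), Real.rpow_natCast]; ring
      _ ≤ _ := by gcongr; norm_num
  · rw [mul_pow, four, Real.sq_sqrt b0]
    gcongr; norm_num

variable {V : Type} [NormedAddCommGroup V] [NormedSpace ℝ V] {pq : ℝ → V} {I : Set ℝ} {C : ℝ}

/-- The increments. -/
theorem inc (hc : 0 ≤ c0) (hm : 2 * c0 + 1 < m) (hC : 0 ≤ C) (hI : I.OrdConnected)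
    (hd : ∀ t ∈ I, ∃ d, HasDerivAt pq d t ∧ ∀ A ≥ 0, Pa S tm f e0 c0 t A → ‖d‖ ≤ C * A ^ 2)
    (ht : t ∈ I) (hs : s ∈ I) (ts : t ≤ s) (hA : 0 ≤ A) (h : Pa S tm f e0 c0 t A)
    (hQ : Ta S tm f c0 t Q) : ‖pq s - pq t‖ ≤ C * (2 * 4 ^ m) * (A ^ 2 + Q) := by
  have q0 := hQ.nn
  obtain ⟨n, hn, hs', h'⟩ := hQ
  have D0 : (0 : ℝ) ≤ 4 ^ m := by positivity
  have key : ∀ k : ℕ, ∀ s ∈ I, t ≤ s → s ≤ t + k →
      ‖pq s - pq t‖ ≤ C * ∑ j ∈ Finset.range k, bk A (4 ^ m) m n j := by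
    intro k
    induction k with
    | zero => intro s _ a b; rw [le_antisymm (by simpa using b) a]; simp
    | succ k ih =>
      intro s hs a b
      have b0 := mul_nonneg hC (bk_nn (A := A) (m := m) D0 hn k)
      rw [Finset.sum_range_succ, mul_add]
      rcases le_total s (t + k) with c | c
      · linarith [ih s hs a c]
      have k0 : t ≤ t + k := le_add_of_nonneg_right k.cast_nonneg
      have sub : Icc (t + k) s ⊆ I := fun u hu => hI.out ht hs ⟨k0.trans hu.1, hu.2⟩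
      choose! d d1 d2 using hd
      have := (convex_Icc (t + k) s).norm_image_sub_le_of_norm_hasDerivWithin_le
        (C := C * bk A (4 ^ m) m n k) (fun u hu => (d1 u (sub hu)).hasDerivWithinAt)
        (fun u hu => (d2 u (sub hu) _ (Real.sqrt_nonneg _) (bk_pa hc hm hn h hA h' k hu.1
          (by push_cast at b; linarith [hu.2]))).trans_eq (by
            rw [Real.sq_sqrt (bk_nn D0 hn k)])) (left_mem_Icc.2 c) (right_mem_Icc.2 c)
      have e : ‖s - (t + k)‖ ≤ 1 := by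
        rw [Real.norm_eq_abs, abs_of_nonneg (by linarith)]; push_cast at b; linarith
      have := norm_sub_le_norm_sub_add_norm_sub (pq s) (pq (t + k)) (pq t)
      have := ih _ (sub (left_mem_Icc.2 c)) k0 le_rfl
      nlinarith
  refine (key ⌈s - t⌉₊ s hs ts (by linarith [Nat.le_ceil (s - t)])).trans ?_
  rw [mul_assoc]
  refine mul_le_mul_of_nonneg_left ((bk_sum D0 hn hs' _).trans ?_) hC
  have : (1 : ℝ) ≤ 4 ^ m := one_le_pow₀ (by norm_num)
  nlinarith [sq_nonneg A]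

/-- The final value. -/
theorem par0 (hc : 0 ≤ c0) (hC : 0 ≤ C) : ∃ C' ≥ 0, ∀ (Y : Type) (S : Set Y) (tm f : Y → ℝ) (e0 : ℝ)
    (I : Set ℝ) (pq : ℝ → V) (K : Set V), I.OrdConnected → I.Nonempty → IsCompact K →
    (∀ t ∈ I, pq t ∈ K) →
    (∀ t ∈ I, ∃ d, HasDerivAt pq d t ∧ ∀ A ≥ 0, Pa S tm f e0 c0 t A → ‖d‖ ≤ C * A ^ 2) →
    ∃ p ∈ K, ∀ t ∈ I, ∀ A ≥ 0, ∀ Q, Pa S tm f e0 c0 t A → Ta S tm f c0 t Q →
      ‖p - pq t‖ ≤ C' * (A ^ 2 + Q) := by
  obtain ⟨m, hm⟩ := exists_nat_gt (2 * c0 + 1)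
  refine ⟨C * (2 * 4 ^ m), by positivity, fun Y S tm f e0 I pq K hI hne hK hb hd => ?_⟩
  have := hne.to_subtype
  obtain ⟨p, hp, cl⟩ := hK.exists_mapClusterPt (f := (atTop : Filter I)) (u := fun s : I => pq s)
    (tendsto_principal.2 (Eventually.of_forall fun s => hb s s.2))
  refine ⟨p, hp, fun t ht A hA Q h hQ => ?_⟩
  have c : IsClosed {v : V | ‖v - pq t‖ ≤ C * (2 * 4 ^ m) * (A ^ 2 + Q)} :=
    isClosed_le (by fun_prop) continuous_const
  refine c.mem_of_mapClusterPt cl ?_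
  filter_upwards [eventually_ge_atTop (⟨t, ht⟩ : I)] with s hs
  exact inc hc hm hC hI hd ht s.2 hs hA h hQ

end Vale.Agent.P354PA
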