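import Vale.Agent.P354FX.Defs2
import Vale.Agent.P354BO.Oq
import Vale.Agent.P354XR.Es2
import Vale.Agent.P354YK.Box
import Vale.Agent.P354YK.La

/-!
The jets of the Weyl spinor in the outgoing frame are close to those of Kerr.
-/

open Finset MvPolynomial

namespace Vale.Agent.P354PA

open Vale.Agent.P354XG Vale.Agent.P354XD Vale.Agent.P354XR Vale.Agent.P354XI Vale.Agent.P354Z
open Vale.Agent.P354BO Vale.Agent.P354FX
open Vale.Agent.P354FA (Lt Lin Gn Dl Gam Ps ev val act nab)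
open Vale.Agent.P354YK (out out_is cone_is pO_is cm_V)

section fam
variable {J : Type} {O : J → Set E6} (K : ∀ j, KC (Sm (on (O j)))) (x : J → E6) (μ : J → ℝ)

/-- b is bounded and a is close to b. -/
def Nq (n : ℕ) (a b : ∀ j, Sm (on (O j))) : Prop :=
  Oq (fun j => (K j).b4) x n 1 b ∧ Oq (fun j => (K j).b4) x n μ fun j => a j - b j

variable {K x μ} {n m : ℕ} {a b a' b' : ∀ j, Sm (on (O j))}

theorem Nq.le (h : Nq K x μ n a b) (e : m ≤ n) : Nq K x μ m a b := ⟨h.1.le e, h.2.le e⟩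

theorem Nq.congr (h : Nq K x μ n a b) (e : ∀ j, a' j = a j) (e' : ∀ j, b' j = b j) :
    Nq K x μ n a' b' := by rwa [funext e, funext e']

theorem Nq.add (h : Nq K x μ n a b) (h' : Nq K x μ n a' b') :
    Nq K x μ n (fun j => a j + a' j) fun j => b j + b' j :=
  ⟨h.1.add h'.1, (h.2.add h'.2).congr fun j => by ring⟩

theorem Nq.mul (hμ : ∀ j, μ j ^ 2 ≤ 1) (h : Nq K x μ n a b) (h' : Nq K x μ n a' b') :
    Nq K x μ n (fun j => a j * a' j) fun j => b j * b' j :=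
  ⟨h.1.mul h'.1, ((((h.2.wt (ν := 1) fun j => by simpa using hμ j).add h.1).mul h'.2).add
    (h.2.mull h'.1)).congr fun j => by ring⟩

theorem Nq.der (h : Nq K x μ (n + 1) a b) (i : Fin 4) :
    Nq K x μ n (fun j => (K j).b4 i (a j)) fun j => (K j).b4 i (b j) :=
  ⟨h.1.der i, (h.2.der i).congr fun _ => (map_sub _ _ _).symm⟩

theorem nq_zero : Nq K x μ n (fun _ => 0) fun _ => 0 := ⟨.zero, Oq.zero.congr fun _ => sub_self _⟩

theorem Nq.zsmul (h : Nq K x μ n a b) (z : ℤ) :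
    Nq K x μ n (fun j => z • a j) fun j => z • b j :=
  ⟨((Oq.int z).mul h.1).congr fun _ => zsmul_eq_mul _ _,
    ((Oq.int z).mul h.2).congr fun _ => by rw [← smul_sub, zsmul_eq_mul]⟩

theorem q2_c {O : Set E6} {K : KC (Sm (on O))} (h : K.Is) (c : K.c = cj) (x : E6) :
    ∀ (n : ℕ) (f : Sm (on O)), q2 K.b4 x n (K.c f) = q2 K.b4 x n f
  | 0, f => by simp [q2, c, fv_cj]
  | n + 1, f => by
    simp only [q2_succ, Fin.sum_univ_four, KC.b4, KC.bs, h4, Fin.castLE, Fin.val_zero, Fin.val_one,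
      Fin.val_two, Fin.reduceFinMk, Matrix.cons_val, show (3 : Fin 4).val = 3 from rfl, ← h.c_T,
      ← h.c_R, ← h.c_P, ← h.c_Q]
    simp only [q2_c h c x n]
    ring

theorem Nq.c (hK : ∀ j, (K j).Is ∧ (K j).c = cj) (h : Nq K x μ n a b) :
    Nq K x μ n (fun j => (K j).c (a j)) fun j => (K j).c (b j) := by
  obtain ⟨⟨C, c, h⟩, D, d, h'⟩ := h
  exact ⟨⟨C, c, fun j => (q2_c (hK j).1 (hK j).2 _ _ _).trans_le (h j)⟩, D, d, fun j =>
    (congrArg _ (map_sub (K j).c _ _).symm).trans_le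
      ((q2_c (hK j).1 (hK j).2 _ _ _).trans_le (h' j))⟩

/-- A calculus on the chart K whose fields have the components e. -/
structure On {A : Type} [CommRing A] [Algebra ℂ A] (K : KC A) (G : GHP A) (e : Lt → Fin 6 → A) :
    Prop where
  is : G.Is
  H : G.H = K.H
  B : G.Hb = K.B
  D : ∀ y, Dl G y = K.V (e y 0) (e y 1) (e y 2) (e y 3) (e y 4) (e y 5)

theorem On.nab {A : Type} [CommRing A] [Algebra ℂ A] {K : KC A} {G : GHP A} {e : Lt → Fin 6 → A}
    (h : On K G e) (y : Lt) (P : P354FA.Fm) : ev G (nab y P) =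
      e y 0 * K.b4 0 (ev G P) + e y 1 * K.b4 1 (ev G P) + e y 2 * K.b4 2 (ev G P) +
      e y 3 * K.b4 3 (ev G P) + e y 4 * ev G (act .H P) + e y 5 * ev G (act .Hb P) +
      Gam G y .F * ev G (act .F P) + Gam G y .E * ev G (act .E P) +
      Gam G y .Fb * ev G (act .Fb P) + Gam G y .Eb * ev G (act .Eb P) := by
  rw [P354FA.ev_nab, h.D, KC.V_ap, ← P354FA.H_ev h.is, ← P354FA.Hb_ev h.is, h.H, h.B, P354FA.cn]
  simp only [add_assoc]
  rfl

variable {G G0 : ∀ j, GHP (Sm (on (O j)))} {e e0 : ∀ j, Lt → Fin 6 → Sm (on (O j))} {N : ℕ}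

theorem lin_nq (hμ : ∀ j, μ j ^ 2 ≤ 1) (h : ∀ j, On (K j) (G j) (e j))
    (h0 : ∀ j, On (K j) (G0 j) (e0 j))
    (he : ∀ y i, Nq K x μ N (fun j => e j y i) fun j => e0 j y i)
    (hg : ∀ y g, Nq K x μ N (fun j => Gam (G j) y g) fun j => Gam (G0 j) y g)
    (hp : ∀ c k, Nq K x μ N (fun j => val (G j) (c, [], k)) fun j => val (G0 j) (c, [], k)) :
    ∀ m n, n + m ≤ N → ∀ P ∈ Lin m, Nq K x μ n (fun j => ev (G j) P) fun j => ev (G0 j) P := by
  intro m
  induction m with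
  | zero =>
    intro n hn P hP
    induction hP using Submodule.span_induction with
    | mem P hP =>
      obtain ⟨c, w, k, hw, rfl⟩ := hP
      obtain rfl := List.length_eq_zero_iff.1 hw
      exact ((hp c k).le hn).congr (fun _ => P354FA.ev_X _ _) fun _ => P354FA.ev_X _ _
    | zero => exact nq_zero.congr (fun _ => map_zero _) fun _ => map_zero _
    | add P Q _ _ a b => exact (a.add b).congr (fun _ => map_add _ _ _) fun _ => map_add _ _ _
    | smul z P _ a => exact (a.zsmul z).congr (fun _ => map_zsmul _ _ _) fun _ => map_zsmul _ _ _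
  | succ m ih =>
    intro n hn P hP
    induction hP using Submodule.span_induction with
    | mem P hP =>
      obtain ⟨c, w, k, hw, rfl⟩ := hP
      obtain ⟨y, w, rfl⟩ := List.exists_cons_of_length_eq_add_one hw
      obtain rfl : w.length = m := by simpa using hw
      have q := P354FA.X_mem c w k
      have d := fun (i : Fin 4) (i' : Fin 6) =>
        ((he y i').le (show n ≤ N by omega)).mul hμ ((ih (n + 1) (by omega) _ q).der i)
      have a := fun g => ih n (by omega) _ (P354FA.act_mem g q)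
      have u := fun i g => ((he y i).le (show n ≤ N by omega)).mul hμ (a g)
      have v := fun g => ((hg y g).le (show n ≤ N by omega)).mul hμ (a g)
      rw [← P354FA.nab_X]
      exact ((((((((((d 0 0).add (d 1 1)).add (d 2 2)).add (d 3 3)).add (u 4 .H)).add
        (u 5 .Hb)).add (v .F)).add (v .E)).add (v .Fb)).add (v .Eb)).congr
        (fun j => (h j).nab _ _) fun j => (h0 j).nab _ _
    | zero => exact nq_zero.congr (fun _ => map_zero _) fun _ => map_zero _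
    | add P Q _ _ a b => exact (a.add b).congr (fun _ => map_add _ _ _) fun _ => map_add _ _ _
    | smul z P _ a => exact (a.zsmul z).congr (fun _ => map_zsmul _ _ _) fun _ => map_zsmul _ _ _

/-- The generators of the chart algebra. -/
def gen {A : Type} [CommRing A] [Algebra ℂ A] (K : KC A) : Fin 9 → A :=
  ![K.r, K.x, K.s, K.sb, K.N, K.Ni, K.sg, K.a, K.M]

noncomputable def omb {A : Type} [CommRing A] [Algebra ℂ A] (K : KC A) : Fin 6 → A :=
  ![-(ii A * K.a * K.sb * K.z), 0, K.z, 0, -(ii A * K.a * K.sb * K.z * K.z), 0]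

theorem gen_bd (hK : ∀ j, (K j).Is) {B : ℝ} (hB : ∀ i j, ‖fv (gen (K j) i) (x j)‖ ≤ B) (n : ℕ)
    (i : Fin 9) : Oq (fun j => (K j).b4) x n 1 fun j => gen (K j) i := by
  refine Oq.stab (F := fun i j => gen (K j) i) (fun i => Oq.of1 (B := B ^ 2) fun j =>
    pow_le_pow_left₀ (norm_nonneg _) (hB i j) 2) (fun n h i a => ?_) n i
  have z : Oq (fun j => (K j).b4) x n 1 fun _ => 0 := .zero
  have t : Oq (fun j => (K j).b4) x n 1 fun _ => 2 := .two
  have s := (h 6).mul (h 6)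
  have q := ((t.mul (h 7)).mul (h 7)).mul (h 1)
  fin_cases a <;> fin_cases i <;>
    simp only [gen, KC.b4, KC.bs, h4, Fin.castLE, Fin.reduceFinMk, Matrix.cons_val, (hK _).tab] <;>
    first
    | exact z
    | exact .one
    | exact (h 3).neg
    | exact (h 2).neg
    | exact t.mul (h 1)
    | exact (((t.mul (h 0)).mul (h 6)).mul (h 6)).neg
    | exact ((q.mul (h 3)).mul (h 6)).mul (h 6)
    | exact ((q.mul (h 2)).mul (h 6)).mul (h 6)

theorem out_bd (hK : ∀ j, (K j).Is) {B : ℝ} (hB : ∀ i j, ‖fv (gen (K j) i) (x j)‖ ≤ B) (n : ℕ) :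
    (∀ i, Oq (fun j => (K j).b4) x n 1 fun j => sc (out (K j)) i) ∧
    (∀ i, Oq (fun j => (K j).b4) x n 1 fun j => P354YK.onc (K j) i) ∧
    (∀ i, Oq (fun j => (K j).b4) x n 1 fun j => P354YK.omc (K j) i) ∧
    (∀ i, Oq (fun j => (K j).b4) x n 1 fun j => omb (K j) i) ∧
    ∀ i, Oq (fun j => (K j).b4) x n 1 fun j => ![0, (K j).N, 0, 0, 0, 0] i := by
  have h := gen_bd hK hB n
  have h0 : Oq (fun j => (K j).b4) x n 1 fun j => (K j).r := h 0
  have h1 : Oq (fun j => (K j).b4) x n 1 fun j => (K j).x := h 1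
  have h2 : Oq (fun j => (K j).b4) x n 1 fun j => (K j).s := h 2
  have h3 : Oq (fun j => (K j).b4) x n 1 fun j => (K j).sb := h 3
  have h4 : Oq (fun j => (K j).b4) x n 1 fun j => (K j).N := h 4
  have h5 : Oq (fun j => (K j).b4) x n 1 fun j => (K j).Ni := h 5
  have h6 : Oq (fun j => (K j).b4) x n 1 fun j => (K j).sg := h 6
  have h7 : Oq (fun j => (K j).b4) x n 1 fun j => (K j).a := h 7
  have h8 : Oq (fun j => (K j).b4) x n 1 fun j => (K j).M := h 8
  have z : Oq (fun j => (K j).b4) x n 1 fun _ => 0 := .zero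
  have t : Oq (fun j => (K j).b4) x n 1 fun _ => 2 := .two
  have u : Oq (fun j => (K j).b4) x n 1 fun _ => ii _ := .ii
  have ia := u.mul h7
  have hz : Oq (fun j => (K j).b4) x n 1 fun j => (K j).z := h6.mul (h0.add (ia.mul h1))
  have hb : Oq (fun j => (K j).b4) x n 1 fun j => (K j).zb := h6.mul (h0.sub (ia.mul h1))
  have hD : Oq (fun j => (K j).b4) x n 1 fun j => (K j).De :=
    ((h0.mul h0).sub ((t.mul h8).mul h0)).add (h7.mul h7)
  have hW : Oq (fun j => (K j).b4) x n 1 fun j => (K j).W := (h0.mul h0).add (h7.mul h7)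
  have he : Oq (fun j => (K j).b4) x n 1 fun j => (K j).ee :=
    ((h0.sub h8).mul h6).sub (((hD.mul h0).mul h6).mul h6)
  have q := (ia.mul h1).mul h6
  refine ⟨fun i => ?_, fun i => ?_, fun i => ?_, fun i => ?_, fun i => ?_⟩ <;> fin_cases i
  exacts [z, z, (h4.mul hz).neg, ((ia.mul h6).mul h2).neg, z, z, ((h5.mul h6).mul hD).mul hz,
    (((ia.mul hz).mul hz).mul h3).neg, z, z, ((((t.mul h8).mul hz).mul hz).mul hz).neg, z, z,
    ((t.mul h5).mul h6).mul hW, ((h5.mul h6).mul hD).neg, ((ia.mul h2).mul h5).mul h6,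
    (((ia.mul h3).mul h5).mul h6).neg, (h5.mul ((he.sub ((q.mul h6).mul hD)).add q)).neg,
    (h5.mul ((he.add ((q.mul h6).mul hD)).sub q)).neg,
    (ia.mul h2).mul hb, z, z, hb, z, ((ia.mul h2).mul hb).mul hb,
    ((ia.mul h3).mul hz).neg, z, hz, z, (((ia.mul h3).mul hz).mul hz).neg, z, z, h4, z, z, z, z]

theorem sc_nq (hK : ∀ j, (K j).Is ∧ (K j).c = cj) (c : ∀ j, (G j).c = (K j).c)
    (c0 : ∀ j, (G0 j).c = (K j).c)
    (h : ∀ i, Nq K x μ N (fun j => sc (G j) i) fun j => sc (G0 j) i) :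
    (∀ y g, Nq K x μ N (fun j => Gam (G j) y g) fun j => Gam (G0 j) y g) ∧
    ∀ b k, Nq K x μ N (fun j => val (G j) (b, [], k)) fun j => val (G0 j) (b, [], k) := by
  have h' : ∀ i, Nq K x μ N (fun j => (G j).c (sc (G j) i)) fun j => (G0 j).c (sc (G0 j) i) :=
    fun i => ((h i).c hK).congr (fun j => by rw [c]) fun j => by rw [c0]
  have p : ∀ k, Nq K x μ N (fun j => Ps (G j) k) fun j => Ps (G0 j) k := fun k =>
    match k with
    | 0 => h 8
    | 1 => h 9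
    | 2 => h 10
    | 3 => h 11
    | 4 => h 12
    | _ + 5 => nq_zero
  refine ⟨fun ⟨y, y'⟩ g => ?_, fun b k => ?_⟩
  · cases y <;> cases y' <;> cases g
    exacts [h 0, h 7, nq_zero, h' 0, h' 7, nq_zero, h 1, h 6, nq_zero, h' 2, h' 5, nq_zero,
      h 2, h 5, nq_zero, h' 1, h' 6, nq_zero, h 3, h 4, nq_zero, h' 3, h' 4, nq_zero]
  · cases b
    · exact (p k).congr (fun _ => P354FA.val_nil _ _) fun _ => P354FA.val_nil _ _
    · exact ((p k).c hK).congr (fun j => by rw [P354FA.val_nil', c]) fun j => by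
        rw [P354FA.val_nil', c0]

end fam

theorem q2_lt {O : Set E6} {p : Pm (Sm (on O))} (h : (hp (on O)).Is) (q : p.Is (hp _)) {x : E6}
    (hx : x ∈ O) : ∀ (n : ℕ) (f : Sm (on O)),
    q2 (kk (hp _) p).b4 x n f ≤ 37 ^ n * q2 (lt (hp _) p) x n f
  | 0, f => by simp [q2]
  | n + 1, f => by
    have a := q2_lt h q hx n f
    have b := q2_mono (lt (hp _) p) x n.le_succ f
    have s := sum_le_sum fun a (_ : a ∈ Finset.univ) => (q2_lt h q hx n _).trans
      (mul_le_mul_of_nonneg_left (q2_b4 h q hx a n f) (by positivity))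
    rw [sum_const, card_univ, Fintype.card_fin, nsmul_eq_mul] at s
    have p : (0 : ℝ) ≤ 37 ^ n := by positivity
    rw [q2_succ, pow_succ]
    push_cast at s
    nlinarith [mul_le_mul_of_nonneg_left b p]

/-- The number of a letter. -/
def li : Lt → Fin 4
  | (false, false) => 0
  | (true, true) => 1
  | (false, true) => 2
  | (true, false) => 3

theorem Dl_f4 {A : Type} [CommRing A] [Algebra ℂ A] (G : GHP A) (y : Lt) : Dl G y = f4 G (li y) := by
  obtain ⟨a, b⟩ := y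
  cases a <;> cases b <;> rfl

/-- The points of the statement. -/
structure Pl (M0 ρ : ℝ) where
  c : Cs
  E : Est
  x : E6
  d : ℝ
  hM : c.M = M0
  ok : c.Ok
  sh : E.Shape c
  eq : E.Eqs c
  hx : x ∈ E.O2
  an : An x
  fa : Est.Fa c x
  hr : x.2.1 ≤ ρ
  d0 : 0 ≤ d
  d1 : d ≤ 1
  bd : ∀ i, q2 (lt (hp _) (E.p2 c)) x 2 (E.d2 c i) ≤ d ^ 2

namespace Pl
variable {M0 ρ : ℝ} (j : Pl M0 ρ)

theorem hp : (hp (on j.E.O2)).Is := cone_is j.sh.co2
theorem p2 : (j.E.p2 j.c).Is (P354XD.hp _) := pO_is j.sh.co2 _ _ _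
theorem K : (j.E.K2 j.c).Is := kk_is j.hp j.p2

theorem on1 : On (j.E.K2 j.c) j.E.G2 fun y => cm (P354XD.hp _) (j.E.p2 j.c) (f4 j.E.G2 (li y)) where
  is := j.eq.w2.is (geo_is (P354YK.cone_pos j.sh.co2).off _ (on_of j.sh.co2.op j.eq.v2))
  H := rfl
  B := rfl
  D := fun ⟨a, b⟩ => by cases a <;> cases b <;> exact P354YK.act_cm j.hp _ rfl

theorem cm0 (i : Fin 4) : cm (P354XD.hp _) (j.E.p2 j.c) (f4 (out (j.E.K2 j.c)) i) =
    ![![0, (j.E.K2 j.c).N, 0, 0, 0, 0], P354YK.onc (j.E.K2 j.c), P354YK.omc (j.E.K2 j.c),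
      omb (j.E.K2 j.c)] i := by
  fin_cases i <;> exact cm_V j.hp _ _ _ _ _ _

theorem on0 : On (j.E.K2 j.c) (out (j.E.K2 j.c))
    fun y => cm (P354XD.hp _) (j.E.p2 j.c) (f4 (out (j.E.K2 j.c)) (li y)) where
  is := out_is j.K
  H := rfl
  B := rfl
  D := fun ⟨a, b⟩ => by cases a <;> cases b <;> simp only [cm0] <;> rfl

theorem val (i : Fin 9) : ‖fv (gen (j.E.K2 j.c) i) j.x‖ ≤ |ρ| + 2 * |M0| + 2 := by
  have hc : ∀ f, evP ⟨_, j.hx⟩ ((P354XD.hp _).c f) = starRingEnd ℂ (evP ⟨_, j.hx⟩ f) :=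
    fun f => fv_cj f _
  have w := w_le j.hp hc 2
  have s : ∀ {t : ℝ}, t ^ 2 ≤ 2 → t ≤ 2 := fun h => by nlinarith
  have m0 : 0 < j.c.M := (abs_nonneg _).trans_lt j.ok.aM
  have r1 : 1 ≤ j.x.2.1 := by linarith [j.fa.1, j.ok.R1]
  have a1 := abs_nonneg ρ
  have a2 := abs_nonneg M0
  have a3 := le_abs_self ρ
  have a4 := le_abs_self M0
  have hr : evP ⟨_, j.hx⟩ ((P354XD.hp _).z 1) = (j.x.2.1 : ℂ) := P354YK.fv_z 1 j.hx
  have hn : evP ⟨_, j.hx⟩ (P354XD.hp _).N = (nq j.x : ℂ) := P354YK.fv_N j.hx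
  have ha : evP ⟨_, j.hx⟩ (j.E.p2 j.c).a = (j.E.a : ℂ) := AlgHom.commutes _ _
  have hM : evP ⟨_, j.hx⟩ (j.E.p2 j.c).M = (j.E.M : ℂ) := AlgHom.commutes _ _
  have e : ∀ {u} {t : ℝ}, evP ⟨_, j.hx⟩ u = t → |t| ≤ |ρ| + 2 * |M0| + 2 →
      ‖evP ⟨_, j.hx⟩ u‖ ≤ |ρ| + 2 * |M0| + 2 := fun e k => by rwa [e, Complex.norm_real]
  have p := j.eq.par
  have hm := j.hM
  have an := j.an
  fin_cases i
  · exact e hr (abs_le.2 ⟨by linarith, by linarith [j.hr]⟩)
  · exact (s ((w.1).trans one_le_two)).trans (by linarith)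
  · exact (s (t := ‖evP ⟨_, j.hx⟩ (P354XD.hp _).kc.s‖) (by simpa [wm_two] using w.2.1)).trans
      (by linarith)
  · exact (s (t := ‖evP ⟨_, j.hx⟩ (P354XD.hp _).kc.sb‖) (by simpa [wb_two] using w.2.2)).trans
      (by linarith)
  · exact e hn (abs_le.2 ⟨by linarith [an.1], by linarith [an.2]⟩)
  · exact (inv_le (B := 2) j.hp.hN hn (by linarith [an.1]) two_pos.le).trans (by linarith)
  · have := mul_nonneg (sq_nonneg j.E.a) (sq_nonneg ‖evP ⟨_, j.hx⟩ (P354XD.hp _).kc.x‖)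
    refine le_trans (b := 1) ?_ (by linarith)
    refine inv_le (φ := evP ⟨_, j.hx⟩) (B := 1) ((mul_comm _ _).trans j.p2.hg)
      (t := j.x.2.1 ^ 2 + j.E.a ^ 2 * ‖evP ⟨_, j.hx⟩ (P354XD.hp _).kc.x‖ ^ 2) ?_ (by nlinarith)
      one_pos.le
    have x := hc (P354XD.hp _).kc.x
    rw [show (P354XD.hp _).c (P354XD.hp _).kc.x = _ from j.hp.kc.c_x] at x
    simp only [map_add, map_mul, hr, ha, mul_assoc]
    nth_rw 2 [x]
    rw [Complex.mul_conj']
    push_cast
    ring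
  · exact e ha (by linarith [p.1, p.2])
  · exact e hM (abs_le.2 ⟨by linarith [abs_nonneg j.E.a, p.1], by linarith [p.2]⟩)

end Pl

theorem low2 : LOW2 := by
  intro M0 ρ
  have hK : ∀ j : Pl M0 ρ, (j.E.K2 j.c).Is ∧ (j.E.K2 j.c).c = cj := fun j => ⟨j.K, rfl⟩
  have hd : ∀ i, Oq (fun j : Pl M0 ρ => (j.E.K2 j.c).b4) Pl.x 2 Pl.d fun j => j.E.d2 j.c i :=
    fun i => .of (B := 37 ^ 2) fun j => (q2_lt j.hp j.p2 j.hx 2 _).trans
      (mul_le_mul_of_nonneg_left (j.bd i) (by positivity))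
  obtain ⟨b0, b1, b2, b3, b4⟩ := out_bd (x := Pl.x) (fun j => (hK j).1) (fun i j => j.val i) 2
  obtain ⟨hg, hp⟩ := sc_nq (G := fun j : Pl M0 ρ => j.E.G2) (G0 := fun j => out (j.E.K2 j.c))
    (μ := Pl.d) hK (fun _ => rfl) (fun _ => rfl) fun i => ⟨b0 i, hd (.inr i)⟩
  have k := lin_nq (N := 2) (fun j => pow_le_one₀ j.d0 j.d1) Pl.on1 Pl.on0 (fun y i =>
    ⟨by
      simp only [Pl.cm0]
      obtain ⟨a, b⟩ := y
      cases a <;> cases b
      exacts [b4 i, b2 i, b3 i, b1 i], hd (.inl (li y, i))⟩) hg hp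
  have k' : ∀ v : {w : List Lt // w.length ≤ 2} × Fin 5, ∃ C, 0 ≤ C ∧ ∀ j : Pl M0 ρ,
      dv j.c j.E j.x v.1 v.2 ^ 2 ≤ C * j.d ^ 2 := fun v => by
    simpa only [P354FA.ev_X, dv] using
      (k _ 0 (by simpa using v.1.2) _ (P354FA.X_mem false v.1 v.2)).2.val
  choose C c hC using k'
  have : Finite {w : List Lt // w.length ≤ 2} := List.finite_length_le Lt 2
  obtain ⟨B, hB⟩ := (Set.finite_range C).bddAbove
  refine ⟨1, one_pos, √B, Real.sqrt_nonneg _, fun c' E x a1 a2 a3 a4 a5 a6 a7 a8 d a9 a10 a11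
    w n hw hn => ?_⟩
  have := hC (⟨w, hw⟩, ⟨n, by omega⟩) ⟨c', E, x, d, a1, a2, a3, a4, a5, a6, a7, a8, a9, a10, a11⟩
  have e := hB ⟨(⟨w, hw⟩, ⟨n, by omega⟩), rfl⟩
  refine (pow_le_pow_iff_left₀ (norm_nonneg _) (by positivity) two_ne_zero).1 (this.trans ?_)
  rw [mul_pow, Real.sq_sqrt ((c _).trans e)]
  exact mul_le_mul_of_nonneg_right e (sq_nonneg _)

end Vale.Agent.P354PA
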