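import Vale.Agent.P354NC.Fam
import Vale.Agent.P354XO.Walk
import Vale.Agent.P354XO.Cht

/-!
The geometry of the near chart.
-/

open scoped ContDiff
open Set Filter Topology Function

namespace Vale.Agent.P354PA

open Vale.Agent.P354XG (E6)
open Vale.Agent.P354MG Vale.Agent.P354XO
open Vale.Agent.P354RN (shr)
open Vale.Agent.P354NC.Fm (rg_R1 rg_t)

theorem inv_near {T : Set ℝ} {W : ℝ → ℝ} {t s : ℝ}
    (lip : ∀ t ∈ T, ∀ t' ∈ T, |W t' - W t - (t' - t)| ≤ |t' - t| / 4)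
    (h : Icc (t - 1) (t + 1) ⊆ T) (e : |s - W t| ≤ 1 / 2) :
    invFunOn W T s ∈ Icc (t - 1) (t + 1) := by
  have m : t ∈ T := h ⟨by linarith, by linarith⟩
  obtain ⟨e1, e2⟩ := abs_le.1 e
  have c : ContinuousOn W (Icc (t - 1) (t + 1)) := LipschitzOnWith.continuousOn (K := 2)
    (LipschitzOnWith.of_dist_le_mul fun x hx y hy => by
      have := lip y (h hy) x (h hx)
      have := abs_sub_abs_le_abs_sub (W x - W y) (x - y)
      simp only [Real.dist_eq, NNReal.coe_ofNat]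
      linarith [abs_nonneg (x - y)])
  have k1 := lip t m _ (h ⟨le_rfl, by linarith⟩)
  have k2 := lip t m _ (h ⟨by linarith, le_rfl⟩)
  rw [show t - 1 - t = -1 by ring, abs_neg, abs_one, abs_le] at k1
  rw [show t + 1 - t = 1 by ring, abs_one, abs_le] at k2
  obtain ⟨u, hu, eu⟩ := intermediate_value_Icc (by linarith) c
    (show s ∈ _ from ⟨by linarith [k1.2], by linarith [k2.1]⟩)
  have k := lip t m _ (invFunOn_mem (f := W) ⟨u, h hu, eu⟩)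
  rw [invFunOn_eq (f := W) ⟨u, h hu, eu⟩] at k
  obtain ⟨k3, k4⟩ := abs_le.1 k
  rcases abs_cases (invFunOn W T s - t) with a | a <;> constructor <;> linarith [a.1, a.2]

/-- The region in the shifted chart, its inner part, and the new time at the base points. -/
def Ds (H : ℝ → ℝ) (R1 : ℝ) (D : Set (ℝ × ℝ)) : Set (ℝ × ℝ) :=
  {p | (p.1 - H p.2, p.2) ∈ D ∧ p.2 < R1 + 2}
def Db (R1 : ℝ) (D : Set (ℝ × ℝ)) : Set (ℝ × ℝ) := {p | p ∈ D ∧ p.2 < R1}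
def wb (R1 : ℝ) (a : E6 → E6) (t : ℝ) : ℝ := (a (t, R1, 1, 1)).1

theorem Ds_open {H : ℝ → ℝ} {D : Set (ℝ × ℝ)} (R1 : ℝ) (h : Continuous H) (o : IsOpen D) :
    IsOpen (Ds H R1 D) :=
  (o.preimage (f := fun p : ℝ × ℝ => (p.1 - H p.2, p.2)) (by fun_prop)).inter
    (isOpen_lt continuous_snd continuous_const)

/-- The data. -/
structure Gm (r1 R1 Rs ti c L : ℝ) (H : ℝ → ℝ) (D : Set (ℝ × ℝ)) (a : E6 → E6) : Prop where
  rg : Rg r1 R1 Rs ti D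
  sm : Differentiable ℝ H
  h0 : ∀ r ≤ R1, H r = 0
  h2 : ∀ r ∈ Icc R1 (R1 + 1), |H r| ≤ 2
  hL : ∀ r ∈ Icc r1 (R1 + 1), |deriv H r| ≤ L
  L1 : 1 ≤ L
  r0 : 0 < r1
  rR : r1 + 1 ≤ R1
  bx : Box (Ds H R1 D) a 1 c c
  c1 : c ≤ 1 / 64
  c2 : c ≤ r1
  c3 : c * (L * R1) ≤ 1 / 2

theorem one_ne : ((1, 1) : ℂ × ℂ) ≠ 0 := by simp

namespace Gm
variable {r1 R1 Rs ti c L t t' r : ℝ} {H : ℝ → ℝ} {D : Set (ℝ × ℝ)} {a : E6 → E6} {x : E6}
  (h : Gm r1 R1 Rs ti c L H D a)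
include h

theorem ds (m : (t, r) ∈ D) (l : r ≤ R1) : (t, r) ∈ Ds H R1 D :=
  ⟨by simpa [h.h0 r l] using m, by linarith⟩

theorem shr_eq (l : x.2.1 ≤ R1) : shr H x = x := by simp [shr, h.h0 _ l]

theorem lip (m : (t, R1) ∈ D) (m' : (t', R1) ∈ D) :
    |wb R1 a t' - wb R1 a t - (t' - t)| ≤ |t' - t| / 4 := by
  have := h.bx.t_line (t := t) (t' := t') (r := R1) one_ne fun p hp =>
    h.ds (hp.2 ▸ rg_t h.rg m m' hp.1) hp.2.le
  rw [one_mul] at this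
  exact this.trans (by nlinarith [h.c1, abs_nonneg (t' - t)])

theorem mem (m : x ∈ Om D) (l : x.2.1 ≤ R1 + 1) : |(a (shr H x)).1 - wb R1 a x.1| ≤ 3 := by
  obtain ⟨t, r, ξ⟩ := x
  have b := h.rg.box _ m.1
  have c0 := h.bx.c0
  have s : ∀ u ∈ uIcc R1 r, u ∈ Icc r1 (R1 + 1) := fun u hu => uIcc_subset_Icc
    ⟨by linarith [h.rR], by linarith⟩ ⟨b.2.1.le, l⟩ hu
  have o : ∀ u ∈ uIcc R1 r, ∀ w ≠ 0, (t + H u, u, w) ∈ Om (Ds H R1 D) := fun u hu w hw =>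
    ⟨⟨by simpa using h.rg.star _ m.1 u hu, by linarith [(s u hu).2]⟩, hw⟩
  obtain ⟨w, n, e⟩ : ∃ w : ℂ × ℂ, ‖w‖ = 1 ∧ (a (t + H r, r, w)).1 = (a (t + H r, r, ξ)).1 :=
    ⟨_, norm_unit (x := (t + H r, r, ξ)) m.2, h.bx.t_unit (o r right_mem_uIcc ξ m.2)⟩
  have w0 : w ≠ 0 := norm_ne_zero_iff.1 (n.trans_ne one_ne_zero)
  have k := (convex_uIcc R1 r).norm_image_sub_le_of_norm_hasDerivWithin_le (C := c * L)
    (f := fun u => (a (t + H u, u, w) - dg 1 (t + H u, u, w)).1)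
    (f' := fun u => ((fderiv ℝ a (t + H u, u, w) - dg 1) (deriv H u, 1, 0)).1)
    (fun u hu => ((ContinuousLinearMap.fst ℝ ℝ _).hasFDerivAt.comp_hasDerivAt u (HasFDerivAt.comp_hasDerivAt u
      (f := fun u => (t + H u, u, w)) ((h.bx.df (o u hu w w0)).hasFDerivAt.sub (dg 1).hasFDerivAt)
      (((h.sm u).hasDerivAt.const_add t).prodMk ((hasDerivAt_id u).prodMk
        (hasDerivAt_const u w)))) :).hasDerivWithinAt)
    (fun u hu => (norm_fst_le _).trans ((ContinuousLinearMap.le_opNorm _ _).trans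
      (mul_le_mul (h.bx.d _ (o u hu w w0) n) (max_le (h.hL u (s u hu))
        (max_le (by simpa using h.L1) (by simpa using zero_le_one.trans h.L1))) (norm_nonneg _) c0)))
    left_mem_uIcc right_mem_uIcc
  have k2 := abs_le.1 (h.bx.t_sphere w0 (h.ds (rg_R1 h.rg m.1) le_rfl))
  have k3 : |H r| ≤ 2 := by
    rcases le_total r R1 with u | u
    · rw [h.h0 r u, abs_zero]; norm_num
    · exact h.h2 r ⟨u, l⟩
  have k4 : c * L * ‖r - R1‖ ≤ c * (L * R1) := by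
    rw [mul_assoc]
    have := h.L1
    gcongr
    exact abs_le.2 ⟨by linarith [b.2.1, h.r0], by linarith [h.rR, h.r0]⟩
  simp only [Prod.fst_sub, dg_ap, one_mul, h.h0 R1 le_rfl, add_zero, e, Real.norm_eq_abs] at k k4
  have k5 := abs_le.1 (k.trans (k4.trans h.c3))
  have k6 := abs_le.1 k3
  exact abs_le.2 ⟨by simp only [shr, wb]; linarith [h.c1, k2.1, k5.1],
    by simp only [shr, wb]; linarith [h.c1, k2.2, k5.2]⟩

theorem sub (m : x ∈ Om (Db R1 D)) : x ∈ Om (Ds H R1 D) := ⟨h.ds m.1.1 m.1.2.le, m.2⟩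

theorem bb : Box (Db R1 D) a 1 c c :=
  { h.bx with
    op := h.rg.op.inter (isOpen_lt continuous_snd continuous_const)
    sm := fun x m => h.bx.sm x (h.sub m), eqv := fun x m => h.bx.eqv x (h.sub m)
    d := fun x m => h.bx.d x (h.sub m), r := fun x m => h.bx.r x (h.sub m)
    xi := fun x m => h.bx.xi x (h.sub m) }

theorem cht : Cht (Om (Db R1 D)) a :=
  h.bb.cht (walk_star (fun p hp q hq s hs => ⟨h.rg.down p hp.1 s
      ⟨(h.rg.box q hq.1).1.trans_le hs.1, hs.2⟩, hp.2⟩) fun t r r' m m' s hs => by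
      have l : s < R1 := (uIcc_subset_Icc (a₂ := min r r') (b₂ := max r r')
        ⟨min_le_left _ _, le_max_left _ _⟩ ⟨min_le_right _ _, le_max_right _ _⟩ hs).2.trans_lt
        (max_lt m.2 m'.2)
      rcases mem_uIcc.1 hs with e | e
      · exact ⟨h.rg.star _ m.1 s (mem_uIcc.2 (.inr ⟨e.1, l.le⟩)), l⟩
      · exact ⟨h.rg.star _ m'.1 s (mem_uIcc.2 (.inr ⟨e.1, l.le⟩)), l⟩)
    zero_le_two (by linarith [h.c1]) fun q m => h.c2.trans_lt (h.rg.box q m.1).2.1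

variable (a1 : ti + 2 ≤ t) (a2 : (t + 2, R1) ∈ D)
include a1 a2

theorem fat {s : ℝ} (hs : s ∈ Icc (t - 1) (t + 1)) (hr : r ∈ Icc (R1 - 1 / 4) R1) : (s, r) ∈ D :=
  h.rg.fat _ a2 s ⟨by linarith [hs.1], by linarith [hs.2]⟩ r ⟨hr.1, by linarith [hr.2]⟩

theorem hit {ξ : ℂ × ℂ} (n : ξ ≠ 0) : ∃ x ∈ Om (Db R1 D),
    a x = (wb R1 a t, R1 - 1 / 8, ξ) ∧ x.1 ∈ Icc (t - 1) (t + 1) := by
  have c0 := h.bx.c0
  have c1 := h.c1
  have m : ∀ s ∈ Icc (t - 1) (t + 1), (s, R1) ∈ D := fun s hs =>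
    h.fat a1 a2 hs ⟨by linarith, le_rfl⟩
  have k : ∀ s ∈ Icc (t - 1) (t + 1), |(a (s, R1 - 1 / 8, 1, 1)).1 - wb R1 a s| ≤ 5 * c :=
    fun s hs => (h.bx.osc one_ne one_ne fun p hp => by
      have := mem_uIcc.1 hp.2
      exact h.ds (hp.1 ▸ h.fat a1 a2 hs (by constructor <;> rcases this with e | e <;>
        linarith [e.1, e.2])) (by rcases this with e | e <;> linarith [e.1, e.2])).trans (by
      rw [show R1 - 1 / 8 - R1 = -(1 / 8) by ring, abs_neg, abs_of_pos (by norm_num)]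
      linarith)
  have s1 : t - 1 / 2 ∈ Icc (t - 1) (t + 1) := ⟨by linarith, by linarith⟩
  have s2 : t + 1 / 2 ∈ Icc (t - 1) (t + 1) := ⟨by linarith, by linarith⟩
  have t0 := m t ⟨by linarith, by linarith⟩
  have l1 := h.lip t0 (m _ s1)
  have l2 := h.lip t0 (m _ s2)
  rw [show t - 1 / 2 - t = -(1 / 2) by ring, abs_neg, abs_of_pos (by norm_num : (0 : ℝ) < 1 / 2),
    abs_le] at l1
  rw [show t + 1 / 2 - t = 1 / 2 by ring, abs_of_pos (by norm_num : (0 : ℝ) < 1 / 2), abs_le] at l2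
  obtain ⟨x, hx, e, u⟩ := h.bb.hit_box (y := (wb R1 a t, R1 - 1 / 8, ξ)) (t1 := t - 1 / 2)
    (t2 := t + 1 / 2) (r1 := R1 - 1 / 8) (r2 := R1 - 1 / 8) (r0 := R1 - 1 / 8) one_ne (by linarith)
    (fun p hp => ⟨h.fat a1 a2 ⟨by linarith [hp.1.1], by linarith [hp.1.2]⟩
      ⟨by linarith [hp.2.1], by linarith [hp.2.2]⟩, by linarith [hp.2.2]⟩) ⟨le_rfl, le_rfl⟩ n
    ⟨le_rfl, le_rfl⟩ (by linarith [(abs_le.1 (k _ s1)).2, l1.2])
    (by linarith [(abs_le.1 (k _ s2)).1, l2.1])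
  exact ⟨x, hx, e, by linarith [u.1], by linarith [u.2]⟩

end Gm

end Vale.Agent.P354PA
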