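import Vale.Agent.P354XA.Cmp

/-!
The metric in the new chart, and a smooth function with given values at the integers.
-/

set_option maxSynthPendingDepth 3

open scoped ContDiff
open Set Filter Topology

noncomputable section

namespace Vale.Agent.P354PA

open Vale.Agent.P354n (R4)
open Vale.Agent.P354XD (tb)
open Vale.Agent.P354XE Vale.Agent.P354YI Vale.Agent.P354YO Vale.Agent.P354XA
open Vale.Agent.P354TS (rd_near)
open Vale.Agent.P354MG

/-- The hypotheses; b is the inverse of φ. -/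
structure Hu (M a r1 ρ : ℝ) (n : ℕ) (h : Tw) (φ b : R4 → R4) (q : R4) (p p' : ℝ × ℝ) (μ : ℝ) :
    Prop where
  l : r1 ≤ rd q
  u : rd q ≤ ρ
  p0 : ‖p - (M, a)‖ ≤ 1
  p1 : ‖p' - (M, a)‖ ≤ 1
  pp : ‖p - p'‖ ≤ μ
  s : Sb h q
  id : Nid n φ q (min (1 / 2) (r1 / 4))
  sb : ContDiffAt ℝ ∞ b (φ q)
  i : ∀ᶠ x in 𝓝 q, b (φ x) = x
  k : Bd n (h - pb φ (gin p.1 p.2)) q μ

theorem push_fam {J : Type} {M a r1 ρ : ℝ} {n : ℕ} (h1 : 0 < r1) {h : J → Tw}
    {φ b : J → R4 → R4} {q : J → R4} {p p' : J → ℝ × ℝ} {μ : J → ℝ}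
    (H : ∀ j, Hu M a r1 ρ n (h j) (φ j) (b j) (q j) (p j) (p' j) (μ j)) :
    ∃ C, 0 ≤ C ∧ ∀ j, Bd n (pb (b j) (h j) - gin (p' j).1 (p' j).2) (φ j (q j)) (C * μ j) := by
  have dφ : Od n q φ := od_nid (fun j => (H j).id) fun _ => (min_le_left _ _).trans (by norm_num)
  have r : ∀ j, r1 / 2 ≤ rd (φ j (q j)) ∧ rd (φ j (q j)) ≤ ρ + 1 := fun j => by
    have := abs_le.1 (rd_near (H j).id.x)
    constructor <;> linarith [(H j).l, (H j).u, min_le_left (1 / 2) (r1 / 4),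
      min_le_right (1 / 2) (r1 / 4)]
  have r0 := fun j => (half_pos h1).trans_le (r j).1
  have s' : ∀ j, Sb (h j - pb (φ j) (gin (p j).1 (p j).2)) (q j) := fun j =>
    (H j).s.sub ((sb_gin (r0 j)).pull (H j).id.sm)
  obtain ⟨ri, db⟩ := dφ.inv (C := 2) (fun j => (H j).sb) (fun j => (H j).i) fun j =>
    low_half ((H j).id.d.zero.trans (min_le_left _ _))
  have e0 : (fun j => b j (φ j (q j))) = q := funext fun j => (H j).i.self_of_nhds
  have bx : ∀ {u : ℝ × ℝ}, ‖u - (M, a)‖ ≤ 1 → u.1 ∈ Icc (M - 1) (M + 1) ∧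
      u.2 ∈ Icc (a - 1) (a + 1) := fun k => by
    have k1 := abs_le.1 ((norm_fst_le _).trans k)
    have k2 := abs_le.1 ((norm_snd_le _).trans k)
    simp only [Prod.fst_sub, Prod.snd_sub] at k1 k2
    exact ⟨⟨by linarith, by linarith⟩, by linarith, by linarith⟩
  have o : ∀ u : J → ℝ × ℝ, Od n (fun j => φ j (q j)) fun j y => ((u j).1, (u j).2, y) := fun u =>
    (od_const _).pair ((od_const _).pair od_id)
  have n0 := fun j => (norm_nonneg _).trans (H j).pp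
  have l := Oj.lip (o p).sm (o p').sm (fun j z hz => by
      have := ((convex_Icc (M - 1) (M + 1)).prod ((convex_Icc (a - 1) (a + 1)).prod
        (convex_singleton (φ j (q j))))).segment_subset (x := ((p j).1, (p j).2, φ j (q j)))
        (y := ((p' j).1, (p' j).2, φ j (q j))) ⟨(bx (H j).p0).1, (bx (H j).p0).2, rfl⟩
        ⟨(bx (H j).p1).1, (bx (H j).p1).2, rfl⟩ hz
      exact ⟨this.1, this.2.1, this.2.2 ▸ r j⟩) n ((o p).d.le (Nat.sub_le n 1))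
    ((o p').d.le (Nat.sub_le n 1)) ((Oj.const (v := fun j => ((p j - p' j).1, (p j - p' j).2,
      (0 : R4))) n0 ⟨1, fun j => (one_mul (μ j)).symm ▸ max_le ((norm_fst_le (p j - p' j)).trans
        (H j).pp) (max_le ((norm_snd_le (p j - p' j)).trans (H j).pp) (by simpa using n0 j))⟩).congr'
      fun j y => by simp) (os_gin M a (half_pos h1) (ρ + 1) (n + 1))
  rw [one_mul] at l
  refine ((Oj.pb db.sm db.d (e0.symm ▸ oj_of_bd s' fun j => (H j).k)).add l).bd' fun j => ?_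
  have c : Tendsto (b j) (𝓝 (φ j (q j))) (𝓝 (q j)) :=
    (H j).sb.continuousAt.tendsto.mono_right (congrArg 𝓝 (congrFun e0 j)).le
  have p1 := pb_two (g := gin (p j).1 (p j).2) (w := id) (H j).sb
    ((congrFun e0 j).symm ▸ (H j).id.sm) (ri j)
  filter_upwards [c.eventually (s' j).bl, p1] with y k1 k2 v w
  have k4 := congrFun (congrFun k2 v) w
  simp only [pb, fderiv_id, ContinuousLinearMap.id_apply, id] at k4
  simp only [P354RC.pb_ap, add_apply, sub_apply, tb_ap k1, tb_ap (gin_bil _ _ _), Pi.sub_apply, pb,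
    k4, sub_add_sub_cancel]

/-- The metric in the new chart. -/
theorem push (M a ρ : ℝ) {r1 : ℝ} (n : ℕ) (h1 : 0 < r1) : ∃ C, 0 ≤ C ∧ ∀ h φ b q p p' μ,
    Hu M a r1 ρ n h φ b q p p' μ → Bd n (pb b h - gin p'.1 p'.2) (φ q) (C * μ) := by
  obtain ⟨C, c0, hC⟩ := push_fam h1
    (J := {i : Tw × (R4 → R4) × (R4 → R4) × R4 × (ℝ × ℝ) × (ℝ × ℝ) × ℝ // Hu M a r1 ρ n i.1 i.2.1
      i.2.2.1 i.2.2.2.1 i.2.2.2.2.1 i.2.2.2.2.2.1 i.2.2.2.2.2.2}) fun j => j.2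
  exact ⟨C, c0, fun h φ b q p p' μ k => hC ⟨(h, φ, b, q, p, p', μ), k⟩⟩

/-- A smooth function with the values v. -/
def sj (v : ℤ → ℝ × ℝ) (j : ℤ) (s : ℝ) : ℝ × ℝ :=
  v j + Real.smoothTransition (3 * (2 * s - j) - 1) • (v (j + 1) - v j)
def sv (v : ℤ → ℝ × ℝ) (s : ℝ) : ℝ × ℝ := sj v ⌊2 * s⌋ s

theorem sv_ev (v : ℤ → ℝ × ℝ) (s : ℝ) : sv v =ᶠ[𝓝 s] sj v ⌊2 * s⌋ := by
  have c : Continuous fun u : ℝ => 2 * u := by fun_prop
  filter_upwards [c.continuousAt.eventually (Ioo_mem_nhds (a := (⌊2 * s⌋ : ℝ) - 1 / 3) (x := 2 * s)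
    (by linarith [Int.floor_le (2 * s)]) (Int.lt_floor_add_one (2 * s)))] with u hu
  rcases le_or_gt (⌊2 * s⌋ : ℝ) (2 * u) with h | h
  · rw [sv, Int.floor_eq_iff.2 ⟨h, hu.2⟩]
  · rw [sv, (Int.floor_eq_iff (z := ⌊2 * s⌋ - 1)).2
      ⟨by push_cast; linarith [hu.1], by push_cast; linarith⟩, sj, sj,
      Real.smoothTransition.one_of_one_le (by push_cast; linarith [hu.1]),
      Real.smoothTransition.zero_of_nonpos (by linarith)]
    simp

theorem sv_cd (v : ℤ → ℝ × ℝ) : ContDiff ℝ ∞ (sv v) := contDiff_iff_contDiffAt.2 fun s =>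
  (contDiff_const.add ((Real.smoothTransition.contDiff.comp (by fun_prop)).smul
    contDiff_const)).contDiffAt.congr_of_eventuallyEq (sv_ev v s)

theorem sv_jb (m : ℕ) : ∃ C, 0 ≤ C ∧ ∀ v (q : ℝ × ℝ) (y : R4) d, ‖v ⌊2 * y.1⌋ - q‖ ≤ d →
    ‖v (⌊2 * y.1⌋ + 1) - q‖ ≤ d → Jb m (fun z : R4 => sv v z.1 - q) y (C * d) := by
  let J := {i : (ℤ → ℝ × ℝ) × (ℝ × ℝ) × R4 × ℝ // ‖i.1 ⌊2 * i.2.2.1.1⌋ - i.2.1‖ ≤ i.2.2.2 ∧
    ‖i.1 (⌊2 * i.2.2.1.1⌋ + 1) - i.2.1‖ ≤ i.2.2.2}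
  let x : J → R4 := fun j => j.1.2.2.1
  have n0 : ∀ j : J, 0 ≤ j.1.2.2.2 := fun j => (norm_nonneg _).trans j.2.1
  have a : Od m x fun j z => 3 * (2 * z.1 - ⌊2 * (x j).1⌋) - 1 :=
    ((od_clm ((6 : ℝ) • .fst ℝ ℝ _)).sub (od_const fun j => (3 * ⌊2 * (x j).1⌋ + 1 : ℝ))).congr
      fun _ => .of_forall fun z => by simp; ring
  have b := a.oj (G := fun _ => Real.smoothTransition) (Oj.fix (isCompact_Icc (a := -1) (b := 2))
    (fun _ _ => Real.smoothTransition.contDiff.contDiffAt) fun j => by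
      constructor <;> linarith [Int.floor_le (2 * (x j).1), Int.lt_floor_add_one (2 * (x j).1)])
  obtain ⟨C, c0, hC⟩ := (((Oj.const (v := fun j : J => j.1.1 ⌊2 * (x j).1⌋ - j.1.2.1) n0
    ⟨1, fun j => by simpa using j.2.1⟩).add (b.smulr (Oj.const
      (v := fun j : J => j.1.1 (⌊2 * (x j).1⌋ + 1) - j.1.1 ⌊2 * (x j).1⌋) n0 ⟨2, fun j =>
        (norm_sub_le_norm_sub_add_norm_sub _ j.1.2.1 _).trans (by
          rw [norm_sub_rev j.1.2.1]; linarith [j.2.1, j.2.2])⟩))).congr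
    (g := fun j z => sv j.1.1 z.1 - j.1.2.1) fun j =>
      (continuous_fst.continuousAt.eventually (sv_ev j.1.1 (x j).1)).mono fun z e => by
        simp only [e, sj]; abel).bd
  exact ⟨C, c0, fun v q y d h1 h2 => hC ⟨(v, q, y, d), h1, h2⟩⟩

end Vale.Agent.P354PA
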