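import Vale.Agent.P354PA.Ta
import Vale.Agent.P354XD.VD
import Vale.Agent.P354DR.Main
import Vale.Agent.P354YI.Jet

/-!
The transverse frame which starts from the frame of Kerr with parameters which depend on the time.
-/

open scoped ContDiff
open Set Filter Topology

noncomputable section

namespace Vale.Agent.P354PA

open Vale.Agent.P354n (R4)
open Vale.Agent.P354XE (Tw gin)
open Vale.Agent.P354XG hiding Dom Dom0 Bd bdSub domI Keeps Low dom0_mk dom0_zero dom0_cst dom_of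
  dom_zero dom_cst bd_alg dom_sum dom0_sum keeps_pd keeps_zero keeps_sum bd_closure dom_pb_aff
  bd_fn bd_par
open Vale.Agent.P354MG hiding Sml
open Vale.Agent.P354XR hiding pw
open Vale.Agent.P354XD Vale.Agent.P354YA Vale.Agent.P354XI
open Vale.Agent.P354DR (dd Sol dd_hom Om_hom)
open Vale.Agent.P354Z (An ge)
open Vale.Agent.P354YI (Jb)

section fam
variable {J : Type} (G : Filter (J × E6)) [Loc G] (g : J → Tw) (P : J → ℝ → ℝ × ℝ)

/-- Functions of the time, the parameters, the frame and its data. -/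
def tg (f : J → ℝ → ℝ) : Sm G := P354XD.pb G fun j y => f j y.1
def sT : Sm G := (hp G).z 1 * (hp G).z 1 +
  (tg G fun j t => (P j t).2) * (tg G fun j t => (P j t).2) * (hp G).kc.x * (hp G).kc.x
def pT : Pm (Sm G) :=
  ⟨tg G fun j t => (P j t).2, tg G fun j t => (P j t).1, Ring.inverse (sT G P), 1, 0⟩
def fP : Fr (Sm G) := (frK (hp G) (pT G P)).full (S := sG G g) (opsS rfl) (sG G g).R
def gP : GHP (Sm G) := (fP G g P).ghp (sG G g)
def dP (M a : J → ℝ) (i : Bool × ((Fin 4 × Fin 6) ⊕ Fin 13)) : Sm G :=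
  if i.1 then dd (hp G) (pm G M a) (gP G g P) i.2 else Om (hp G) 2 (dd (hp G) (pm G M a) (gP G g P) i.2)

variable {G P} {f : J → ℝ → ℝ}

omit [Loc G] in
theorem smb_tg (h : ∀ᶠ p in G, ContDiff ℝ ∞ (f p.1)) : SmB G fun j y => f j y.1 :=
  h.mono fun _ h => (h.comp contDiff_fst).contDiffAt

theorem d_tg (o : Off G) (h : ∀ᶠ p in G, ContDiff ℝ ∞ (f p.1)) (i : Fin 6) (hi : i ≠ 0) :
    (hp G).d i (tg G f) = 0 := by
  have z : ∀ a : Fin 4, a ≠ 0 → P354XD.pb G (fun j => db a fun y => f j y.1) = 0 := fun a ha =>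
    (rs_pb o ((smb_tg h).db a)).ext rs_zero (h.mono fun p h => by
      have e : fderiv ℝ (fun y : R4 => f p.1 y.1) (pj p.2) = _ :=
        ((h.differentiable (by simp) _).hasFDerivAt.comp (pj p.2) hasFDerivAt_fst).fderiv
      have : (P354RC.bs a).1 = 0 := by fin_cases a <;> simp_all [P354RC.bs]
      simp [db, e, this])
  have c : (hp G).co 0 = (hp G).z 0 := by simp [Hp.co, Hp.e0, Hp.om]
  rw [tg, d_pb o (smb_tg h), Fin.sum_univ_four, z 1 (by decide), z 2 (by decide), z 3 (by decide),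
    c, (hp_is o).dz, if_neg hi]
  ring

variable (h : ∀ᶠ p in G, (0 < p.2.2.1 ∧ p.2.2.2 ≠ 0) ∧ ContDiff ℝ ∞ (P p.1))
include h

omit [Loc G] in
theorem t_pos : Pos G := h.mono fun _ h => h.1

theorem sT_unit : IsUnit (sT G P) := by
  have o := (t_pos h).off
  have a := rs_pb o (smb_tg (f := fun j t => (P j t).2) (h.mono fun _ h => h.2.snd))
  refine (((rs_z 1).mul (rs_z 1)).add (((a.mul a).mul (rs_om o 3)).mul (rs_om o 3))).unit
    (h.mono fun p e => ?_)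
  simpa [zc] using Complex.ofReal_ne_zero.2 (sg_pos e.1.1 (P p.1 (pj p.2).1).2).ne'

theorem pT_pw : Pw (hp G) (pT G P) :=
  have o := (t_pos h).off
  have a : ∀ᶠ p in G, ContDiff ℝ ∞ fun t => (P p.1 t).2 := h.mono fun _ h => h.2.snd
  have m : ∀ᶠ p in G, ContDiff ℝ ∞ fun t => (P p.1 t).1 := h.mono fun _ h => h.2.fst
  ⟨cj_pb o (smb_tg (f := fun j t => (P j t).2) a), cj_pb o (smb_tg (f := fun j t => (P j t).1) m),
    d_tg (f := fun j t => (P j t).2) o a, d_tg (f := fun j t => (P j t).1) o m, rfl, rfl,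
    Ring.inverse_mul_cancel _ (sT_unit h)⟩

theorem rx_fr {J' : Type} {G' : Filter (J' × E6)} [Loc G'] {κ : J' → J} (r : Rx G' G κ) :
    fm r.rix (frK (hp G) (pT G P)) = frK (hp G') (pT G' fun j => P (κ j)) := by
  have o := (t_pos h).off
  have a := r.rix_pb o (smb_tg (f := fun j t => (P j t).2) (h.mono fun _ h => h.2.snd))
  have k := r.hp o
  refine k.frK ⟨a, r.rix_pb o (smb_tg (f := fun j t => (P j t).1) (h.mono fun _ h => h.2.fst)),
    (r.rix_inv (sT_unit h)).trans (congrArg _ ?_), map_one _, map_zero _⟩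
  simp only [sT, tg, map_add, map_mul, k.z, k.xs, a]

end fam

/-- The family of all parameters, and the values of the frame. -/
abbrev G1 : Filter ((ℝ → ℝ × ℝ) × E6) := nb ⊤ fun P => {x | (0 < x.2.1 ∧ x.2.2 ≠ 0) ∧ ContDiff ℝ ∞ P}
def vP (p : (ℝ → ℝ × ℝ) × E6) : Fr ℂ :=
  ⟨fun d => rep ((frK (hp G1) (pT G1 id)).l d) p, fun d => rep ((frK (hp G1) (pT G1 id)).n d) p,
    fun d => rep ((frK (hp G1) (pT G1 id)).m d) p, fun d => rep ((frK (hp G1) (pT G1 id)).mb d) p⟩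

/-- The points near which the frame is defined. -/
def KP (g : Tw) (P : ℝ → ℝ × ℝ) : Set E6 := {x | ∀ᶠ y in 𝓝 x, (y ∈ K0 g ∧ ContDiff ℝ ∞ P) ∧
  (vP (P, y)).Ok (S := pt (vg (g, y))) opsC (vR (g, y))}
abbrev UU : Type := Tw × (ℝ → ℝ × ℝ) × ℝ × ℝ
def u1 (u : UU) : Tw := u.1
def u2 (u : UU) : ℝ → ℝ × ℝ := u.2.1
def u3 (u : UU) : ℝ := u.2.2.1
def u4 (u : UU) : ℝ := u.2.2.2
abbrev G2 : Filter (UU × E6) := nb ⊤ fun u => KP (u1 u) (u2 u)
def vD (i : Bool × ((Fin 4 × Fin 6) ⊕ Fin 13)) : UU × E6 → ℂ := rep (dP G2 u1 u2 u3 u4 i)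

theorem KP_open (g : Tw) (P : ℝ → ℝ × ℝ) : IsOpen (KP g P) := isOpen_setOfPred_eventually_nhds

section
variable {J : Type} {G : Filter (J × E6)} [Loc G] {g : J → Tw} {P : J → ℝ → ℝ × ℝ}

theorem vP_rf (h : ∀ᶠ p in G, (0 < p.2.2.1 ∧ p.2.2.2 ≠ 0) ∧ ContDiff ℝ ∞ (P p.1)) :
    Rf (frK (hp G) (pT G P)) fun p => vP (P p.1, p.2) := by
  have r : Rx G G1 P := rx_of h
  have k : ∀ᶠ p in G1, (0 < p.2.2.1 ∧ p.2.2.2 ≠ 0) ∧ ContDiff ℝ ∞ (id p.1) :=
    ev_nb.2 (.of_forall fun _ _ hx => (((continuous_fst.comp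
      continuous_snd).continuousAt.eventually (lt_mem_nhds hx.1.1)).and ((continuous_snd.comp
      continuous_snd).continuousAt.eventually_ne hx.1.2)).mono fun _ e => ⟨e, hx.2⟩)
  rw [show frK (hp G) (pT G P) = _ from (rx_fr k r).symm]
  exact r.rf ⟨fun _ => rs_rep _, fun _ => rs_rep _, fun _ => rs_rep _, fun _ => rs_rep _⟩

theorem kp_of (h : ∀ᶠ p in G, p.2 ∈ K0 (g p.1) ∧ ContDiff ℝ ∞ (P p.1))
    (o : (frK (hp G) (pT G P)).Ok (S := sG G g) (opsS rfl) (sG G g).R) :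
    ∀ᶠ p in G, p.2 ∈ KP (g p.1) (P p.1) := by
  obtain ⟨h1, h2, -⟩ := vals (M := 0) (a := 0) (h.mono fun _ e => e.1)
  exact Loc.ev _ (h.and (full_rs h1 h2 (vP_rf (h.mono fun _ e => ⟨e.1.1, e.2⟩)) (Or.inl o)).2.1)

variable (h : ∀ᶠ p in G, p.2 ∈ KP (g p.1) (P p.1))
include h

omit [Loc G] in
theorem kp0 : ∀ᶠ p in G, p.2 ∈ K0 (g p.1) := h.mono fun _ e => e.self_of_nhds.1.1

omit [Loc G] in
theorem kp1 : ∀ᶠ p in G, (0 < p.2.2.1 ∧ p.2.2.2 ≠ 0) ∧ ContDiff ℝ ∞ (P p.1) :=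
  h.mono fun _ e => ⟨e.self_of_nhds.1.1.1, e.self_of_nhds.1.2⟩

theorem fP_rs : (frK (hp G) (pT G P)).Ok (S := sG G g) (opsS rfl) (sG G g).R ∧ Rf (fP G g P)
    fun p => (vP (P p.1, p.2)).full (S := pt (vg (g p.1, p.2))) opsC (vR (g p.1, p.2)) := by
  obtain ⟨h1, h2, -⟩ := vals (M := 0) (a := 0) (kp0 h)
  have := full_rs (hS := rfl) h1 h2 (vP_rf (kp1 h)) (Or.inr (h.mono fun _ e => e.self_of_nhds.2))
  exact ⟨this.1, this.2.2.2⟩

theorem fP_wn : (fP G g P).WN (sG G g) ∧ (gP G g P).P1 = 0 ∧ (gP G g P).P3 = 0 :=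
  have o := (t_pos (kp1 h)).off
  Fr.full_wn (geo_is o _ ((kp0 h).mono fun _ k => k.2)) ((pT_pw (kp1 h)).rw (hp_is o) _ _)
    (fP_rs h).1

theorem dP_rs (M a : J → ℝ) (i : Bool × ((Fin 4 × Fin 6) ⊕ Fin 13)) :
    Rs (dP G g P M a i) fun p => vD i ((g p.1, P p.1, M p.1, a p.1), p.2) := by
  have r : Rx G G2 fun j => (g j, P j, M j, a j) := rx_of h
  have k : ∀ᶠ p in G2, p.2 ∈ KP (u1 p.1) (u2 p.1) :=
    ev_nb.2 (.of_forall fun _ _ hx => (KP_open _ _).mem_nhds hx)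
  have o : Pos G2 := k.mono fun _ e => e.self_of_nhds.1.1.1
  have m : GHom (sG G2 u1) (sG G g) r.rix := r.geo o.off _ ((kp0 k).mono fun _ k => k.2)
  have e : fm r.rix (fP G2 u1 u2) = fP G g P := (r.rf (fP_rs k).2).ext (fP_rs h).2 .rfl
  have c : GHP.Hom (gP G2 u1 u2) (gP G g P) r.rix := by
    rw [gP, gP, ← e]; exact m.ghp _
  have q : P354DR.pmap r.rix (pm G2 u3 u4) = pm G M a := by
    simp only [P354DR.pmap, pm, map_one, map_zero, Pm.mk.injEq, and_true]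
    exact ⟨r.rix_cst _, r.rix_cst _, (r.rs (rs_sg o u3 u4)).ext (rs_sg (r.ev o) M a) .rfl⟩
  have d : r.rix (dP G2 u1 u2 u3 u4 i) = dP G g P M a i := by
    unfold dP
    split_ifs
    · rw [dd_hom (r.hp o.off) _ c, q]
    · rw [Om_hom (r.hp o.off), dd_hom (r.hp o.off) _ c, q]
  exact d ▸ r.rep _

end

theorem kp_on (g : Tw) (P : ℝ → ℝ × ℝ) : ∀ᶠ p in on (KP g P), p.2 ∈ KP g P :=
  on_of (KP_open g P) fun _ hx => hx

/-- The frame is a transverse vacuum frame. -/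
theorem sol_KP (g : Tw) (P : ℝ → ℝ × ℝ) : Sol (KP g P) g (fP _ (fun _ => g) fun _ => P) :=
  have w := fP_wn (g := fun _ => g) (P := fun _ => P) (kp_on g P)
  ⟨KP_open g P, fun _ e => e.self_of_nhds.1.1.1, fun _ e => e.self_of_nhds.1.1.2, w.1, w.2.1, w.2.2⟩

theorem reg_T {J : Type} {F : Filter J} {K : J → Set E6} [Gr F] {μ : ℕ → J → ℝ} {M a : J → ℝ}
    {g : J → Tw} {P : J → ℝ → ℝ × ℝ} (r : Reg F K M a)
    (hv : ∀ᶠ j in F, ∀ x ∈ K j, VacAt (g j) (pj x)) (w : Wgt μ) (s : P354MG.Sml F μ)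
    (hf : ∀ᶠ q in gr, ∀ θ, ∃ C, 0 ≤ C ∧ ∀ᶠ j in ph F q.2 θ, ∀ x ∈ K j,
      P354XE.Bd q.1 (g j - gin (M j) (a j)) (pj x) (C * μ q.2 j))
    (h0 : ∀ᶠ j in F, ContDiff ℝ ∞ (P j)) (hj : ∀ᶠ q in gr, ∀ θ, ∀ᶠ j in ph F q.2 θ, ∀ x ∈ K j,
      Jb q.1 (fun y : R4 => P j y.1 - (M j, a j)) (pj x) (μ q.2 j)) :
    (∀ᶠ p in nb F K, p.2 ∈ KP (g p.1) (P p.1)) ∧ ∀ i, Dom μ (dP (nb F K) g P M a i) := by
  have hP : ∀ᶠ p in nb F K, ContDiff ℝ ∞ (P p.1) :=
    ev_nb.2 (h0.mono fun _ h _ _ => .of_forall fun _ => h)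
  have c : ∀ L : ℝ × ℝ →L[ℝ] ℝ, ‖L‖ ≤ 1 →
      Dom μ (tg (nb F K) (fun j t => L (P j t)) - cst fun j => L (M j, a j)) := fun L hL => by
    have b := smb_tg (f := fun j t => L (P j t)) (hP.mono fun _ h => L.contDiff.comp h)
    have b' := smb_tg (f := fun j t => L (P j t - (M j, a j)))
      (hP.mono fun _ h => L.contDiff.comp (h.sub contDiff_const))
    rw [tg, ((rs_pb r.pos.off b).sub (rs_cst _)).ext (rs_pb r.pos.off b')
      (.of_forall fun p => by simp)]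
    refine r.dom_pb w (h0.mono fun j h x _ => .of_forall fun y => (L.contDiff.comp
      ((h.sub contDiff_const).comp contDiff_fst)).contDiffAt) ((hj.and (evj h0)).mono fun q h θ =>
        ⟨1, zero_le_one, ((h.1 θ).and (h.2 θ)).mono fun j h x hx m hm => ?_⟩)
    exact ((h.1 x hx).clm L ((h.2.sub contDiff_const).comp contDiff_fst).contDiffAt m hm).trans
      (mul_le_mul_of_nonneg_right hL (w.nonneg _ _))
  obtain ⟨Mi, bM, eM⟩ := r.Mi
  obtain ⟨o, d⟩ := near_T (K := hp (nb F K)) (N := P354XD.henG K w s) (P354XD.fit_G w s)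
    (hp_is r.pos.off) (pm_is r.pos M a) (pT_pw (r.pos.and hP)) r.hb r.pb eM bM
    (geo_is r.pos.off (1 / 2) (r.vac hv)) (funext₂ (gin_eq r.pos M a)) (gin_is r.pos M a)
    (fun i _ _ c => ⟨r.keeps wgt_one i c.1, by rw [← map_sub]; exact r.keeps w i c.2⟩)
    (r.cg_g hv w s hf) ⟨r.bd_a, c (.snd ℝ ℝ ℝ) (ContinuousLinearMap.norm_snd_le ..)⟩
    ⟨r.bd_M, c (.fst ℝ ℝ ℝ) (ContinuousLinearMap.norm_fst_le ..)⟩ rfl rfl
  refine ⟨kp_of ((r.pos.and (r.vac hv)).and hP) o, fun i => ?_⟩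
  have d : ∀ i, Dom μ (dd (hp (nb F K)) (pm _ M a) (gP _ g P) i) := d
  unfold dP
  split_ifs
  · exact d _
  · have k := fun l (hl : l ≠ 0) => Dom.bmul w (r.z l hl) (r.keeps w l (d i.2))
    simp only [Om, Matrix.cons_val, Derivation.smul_apply, Derivation.sub_apply,
      Derivation.add_apply, smul_eq_mul]
    exact Dom.bmul w (mul_mem (s := bdSub F K) hf_mem ii_mem) ((((k 3 (by decide)).sub w
      (k 2 (by decide))).add w (k 4 (by decide))).sub w (k 5 (by decide)))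

/-- The hypotheses at the point x. -/
structure Ht (M a r1 r2 : ℝ) (k : ℕ) (g : Tw) (P : ℝ → ℝ × ℝ) (x : E6) (q : ℝ × ℝ) (d : ℝ) :
    Prop where
  par : ‖q - (M, a)‖ ≤ M / 2
  vac : VacAt g (pj x)
  r1 : r1 ≤ x.2.1
  r2 : x.2.1 ≤ r2
  an : An x
  sm : ContDiff ℝ ∞ P
  met : P354XE.Bd k (g - gin q.1 q.2) (pj x) d
  jet : Jb k (fun y : R4 => P y.1 - q) (pj x) d

abbrev JT : Type := Tw × (ℝ → ℝ × ℝ) × E6 × (ℝ × ℝ) × ℝ

def ft (M a r1 r2 : ℝ) (k : ℕ) : Filter JT := comap (fun j => j.2.2.2.2) (𝓝 0) ⊓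
  𝓟 {j | Ht M a r1 r2 k j.1 j.2.1 j.2.2.1 j.2.2.2.1 j.2.2.2.2}

variable {M a r1 r2 : ℝ}

theorem ft_anti : Antitone (ft M a r1 r2) := fun _ _ e => inf_le_inf_left _
  (principal_mono.2 fun _ h => ⟨h.par, h.vac, h.r1, h.r2, h.an, h.sm,
    fun m hm => h.met m (hm.trans e), h.jet.mono e le_rfl⟩)

theorem ft_hy (k : ℕ) :
    ∀ᶠ j in ft M a r1 r2 k, Ht M a r1 r2 k j.1 j.2.1 j.2.2.1 j.2.2.2.1 j.2.2.2.2 :=
  mem_inf_of_right (mem_principal_self _)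

/-- The frame is defined, and its data are close to the data of Kerr. -/
theorem tf (M a r1 r2 : ℝ) (hM : 0 < M) (h1 : 0 < r1) : ∃ m C, 0 ≤ C ∧ ∃ e > 0, ∀ g P x q d,
    d ≤ e → Ht M a r1 r2 m g P x q d → x ∈ KP g P ∧ ∀ i, ‖vD i ((g, P, q), x)‖ ≤ C * d := by
  let := grSeq (ft M a r1 r2) ft_anti
  have w : Wgt fun (_ : ℕ) (j : JT) => |j.2.2.2.2| :=
    ⟨fun _ _ => abs_nonneg _, fun _ _ _ _ => le_rfl⟩
  have r : Reg (⨅ k, ft M a r1 r2 k) (fun j => {j.2.2.1}) (fun j => j.2.2.2.1.1)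
      fun j => j.2.2.2.1.2 := .of_forall fun k θ => ⟨min (min (M / 2) r1) (1 / 2),
    lt_min (lt_min (half_pos hM) h1) (by norm_num), 2 * M + |a| + |r2| + 2,
      (ft_hy k).mono fun j h x hx => by
        obtain rfl : x = j.2.2.1 := hx
        have b1 := abs_le.1 ((norm_fst_le _).trans h.par)
        have b2 := abs_le.1 ((norm_snd_le _).trans h.par)
        simp only [Prod.fst_sub, Prod.snd_sub] at b1 b2
        have := abs_nonneg a
        have := abs_nonneg r2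
        have := le_abs_self r2
        have := abs_le.1 (le_refl |a|)
        refine ⟨((min_le_left _ _).trans (min_le_left _ _)).trans (le_abs.2 (.inl ?_)),
          abs_le.2 ⟨?_, ?_⟩, abs_le.2 ⟨?_, ?_⟩, ((min_le_left _ _).trans (min_le_right _ _)).trans
          h.r1, ?_, (min_le_right _ _).trans h.an.1, ?_⟩ <;> linarith [h.r2, h.an.2]⟩
  have h0 := (ft_hy (M := M) (a := a) (r1 := r1) (r2 := r2) 0).filter_mono (iInf_le _ 0)
  obtain ⟨u, D⟩ := reg_T (g := fun j => j.1) (P := fun j => j.2.1) r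
    (h0.mono fun j h x hx => hx ▸ h.vac) w (.of_forall fun k θ => (abs_zero (α := ℝ)) ▸
      (tendsto_comap.mono_left inf_le_left :
        Tendsto (fun j : JT => j.2.2.2.2) (ft M a r1 r2 k) (𝓝 0)).abs)
    (ev_gr.2 ⟨0, fun n k e θ => ⟨1, zero_le_one, (ft_hy k).mono fun j h x hx m hm v u =>
      (hx ▸ h.met m (hm.trans e) v u).trans (by gcongr; simpa using le_abs_self _)⟩⟩)
    (h0.mono fun _ h => h.sm) (ev_gr.2 ⟨0, fun n k e θ => (ft_hy k).mono fun j h x hx =>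
      hx ▸ h.jet.mono e (le_abs_self _)⟩)
  obtain ⟨k, ⟨e1, e2⟩, e3⟩ := (((eventually_all.2 fun i => (D i).dom0).and (evk (ev_nb_on u))).and
    (evk (eventually_all.2 fun i => (dP_rs (g := fun j : JT => j.1) (P := fun j => j.2.1) u
      (fun j => j.2.2.2.1.1) (fun j => j.2.2.2.1.2) i).on))).exists
  choose C c0 hC using fun i => e1 i ()
  obtain ⟨δ, hδ, h⟩ := Metric.eventually_nhds_iff.1 (eventually_comap.1
    (eventually_inf_principal.1 (((eventually_all.2 hC).and (e2 ())).and (e3 ()))))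
  refine ⟨k, ∑ i, C i, Finset.sum_nonneg fun i _ => c0 i, δ / 2, half_pos hδ,
    fun g P x q d a1 a2 => ?_⟩
  have d0 := a2.jet.nonneg
  obtain ⟨⟨b1, b2⟩, b3⟩ := h (y := d) (by
    rw [Real.dist_eq, sub_zero, abs_of_nonneg d0]; linarith) (g, P, x, q, d) rfl a2
  refine ⟨b2 x rfl, fun i => ((b3 i x rfl).symm ▸ b1 i x rfl).trans ?_⟩
  exact mul_le_mul (Finset.single_le_sum (fun i _ => c0 i) (Finset.mem_univ i))
    (abs_of_nonneg d0).le (abs_nonneg _) (Finset.sum_nonneg fun i _ => c0 i)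

/-- The frame is close to Kerr on the sphere (t, r). -/
theorem cls_T (M a r : ℝ) (hM : 0 < M) (h1 : 0 < r) : ∃ m C, 0 ≤ C ∧ ∃ e > 0, ∀ g P t q d, d ≤ e →
    (∀ ξ, An (t, r, ξ) → Ht M a r r m g P (t, r, ξ) q d) → ∃ p, P354DR.Cls
      ((fP (on (KP g P)) (fun _ => g) fun _ => P).ghp (ge _ g)) r t p q.1 q.2 (C * d) := by
  obtain ⟨m, C, c0, e, e0, h⟩ := tf M a r r hM h1
  refine ⟨m, C, c0, e, e0, fun g P t q d a1 a2 => ⟨pm _ (fun _ => q.1) fun _ => q.2,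
    pm_is ((kp_on g P).mono fun _ e => e.self_of_nhds.1.1.1) _ _,
    (rs_cst fun _ => (q.1 : ℂ)).ext (rs_alg (q.1 : ℂ)) .rfl,
    (rs_cst fun _ => (q.2 : ℂ)).ext (rs_alg (q.2 : ℂ)) .rfl, fun ξ x => (h _ _ _ _ _ a1 (a2 ξ x)).1, fun ξ x i => ?_⟩⟩
  obtain ⟨b1, b2⟩ := h _ _ _ _ _ a1 (a2 ξ x)
  have k := fun i => ev_on (dP_rs (g := fun _ => g) (P := fun _ => P) (kp_on g P)
    (fun _ => q.1) (fun _ => q.2) i) b1
  rw [fv_in _ b1, fv_in _ b1]
  exact ⟨(congrArg norm (k (true, i))).trans_le (b2 _), (congrArg norm (k (false, i))).trans_le (b2 _)⟩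

end Vale.Agent.P354PA
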