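import Vale.Agent.P354PA.Npa
import Vale.Agent.P354PA.Tf
import Vale.Agent.P354PA.Pu
import Vale.Agent.P354PA.Ng

/-!
The final parameters of the near chart.
-/

open scoped ContDiff
open Set Filter Topology Function

noncomputable section

namespace Vale.Agent.P354PA

open Vale.Agent.P354n (R4)
open Vale.Agent.P354XG (E6)
open Vale.Agent.P354XD (pj VacAt)
open Vale.Agent.P354XE (Tw gin rd)
open Vale.Agent.P354XR (rd_pj)
open Vale.Agent.P354XV (Lv)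
open Vale.Agent.P354MG Vale.Agent.P354XO Vale.Agent.P354NC
open Vale.Agent.P354RN (shr)
open Vale.Agent.P354YA (eta)
open Vale.Agent.P354Z (An)
open Vale.Agent.P354NC.Fm (rg_R1 rg_t sz_mono bdm)

variable {M a r1 R1 Rs ti c L E K : ℝ} {H : ℝ → ℝ} {D : Set (ℝ × ℝ)} {g : Tw} {y : R4 → R4}
  {pq : ℝ → ℝ × ℝ} {k n : ℕ} {C : ℝ → ℝ}

theorem ny_mono {C' : ℝ → ℝ} {n' : ℕ} (h : Ny M a H k D g R1 ti n C y pq) (e : ∀ ρ, C ρ ≤ C' ρ)
    (l : n' ≤ n) (b : ∀ p ∈ D, ti < p.1) : Ny M a H k D g R1 ti n' C' y pq where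
  pt ρ hρ x m u μ ν s :=
    have k := h.pt ρ hρ x m u μ ν s
    have v := mul_le_mul_of_nonneg_right (e ρ) (s.1.trans s.2.1)
    ⟨k.1.mono l v, k.2.1.trans v, bdm k.2.2 l (mul_le_mul_of_nonneg_right (e ρ) s.1)⟩
  tm ρ hρ x m u ν s := (h.tm ρ hρ x m u ν s).trans (mul_le_mul_of_nonneg_right
    (mul_le_mul_of_nonneg_right (e ρ) s.1) (by linarith [b _ m.1]))

theorem sz_all {ρ : ℝ} {I : Set ℝ} (rg : Rg r1 R1 Rs ti D) (s : Sz M a H k D g Rs univ E E) :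
    Sz M a H k D g ρ I E E :=
  ⟨s.1, le_rfl, fun x m _ => s.2.2 x ⟨m.1, m.2.1, (rg.box _ m.1.1).2.2.le⟩ trivial⟩

theorem sz_of {μ : ℝ} {I J : Set ℝ} (rg : Rg r1 R1 Rs ti D) (s : Sz M a H k D g Rs univ E E)
    (hμ : μ ∈ Icc 0 E) (z : Zs (Un D (R1 + 1)) Prod.fst (fun x => eta M a k g (shr H x)) I μ)
    (e : J ⊆ I) : Sz M a H k D g R1 J μ E :=
  ⟨hμ.1, hμ.2, fun x m t => ⟨z x ⟨m.1, m.2.1, by linarith [m.2.2]⟩ (e t),
    ((sz_all rg s).2.2 x m t).2⟩⟩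

/-- The metric in the new chart, and the smooth parameters. -/
def gN (R1 : ℝ) (D : Set (ℝ × ℝ)) (y : R4 → R4) (g : Tw) : Tw :=
  P354XE.pb (b4 (Om (Db R1 D)) (lft y)) g
def pN (R1 : ℝ) (D : Set (ℝ × ℝ)) (y : R4 → R4) (pq : ℝ → ℝ × ℝ) : ℝ → ℝ × ℝ :=
  sv fun j => pq (invFunOn (wb R1 (lft y)) {t | (t, R1) ∈ D} (j / 2))

/-- The data. -/
structure Nd (M a r1 R1 Rs ti c L E K : ℝ) (H : ℝ → ℝ) (D : Set (ℝ × ℝ)) (g : Tw) (y : R4 → R4)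
    (pq : ℝ → ℝ × ℝ) (k n : ℕ) (C : ℝ → ℝ) : Prop extends Gm r1 R1 Rs ti c L H D (lft y) where
  pj : ∀ x ∈ Om (Ds H R1 D), pj (lft y x) = y (pj x)
  lv : ∀ x ∈ Om D, ∃ W, Lv g W ∧ P354XD.pj (shr H x) ∈ W
  sz : Sz M a H k D g Rs univ E E
  ny : Ny M a H k D g R1 ti n C y pq
  lp : Lp M a H k D g R1 (C R1) pq
  K0 : 0 ≤ C R1
  K1 : C R1 ≤ K
  s1 : K * E ≤ M / 2
  s2 : K * E ≤ min (1 / 2) (r1 / 4)

namespace Nd
variable (h : Nd M a r1 R1 Rs ti c L E K H D g y pq k n C) {t μ : ℝ}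
include h

theorem le {u : ℝ} (hu : 0 ≤ u) : C R1 * u ≤ K * u := mul_le_mul_of_nonneg_right h.K1 hu

theorem crude (m : (t, R1) ∈ D) : ‖pq t - (M, a)‖ ≤ K * E :=
  (h.ny.pt R1 le_rfl (t, R1, 1, 1) ⟨m, one_ne⟩ le_rfl E E (sz_all h.rg h.sz)).2.1.trans
    (h.le h.sz.1)

theorem lw {t' : ℝ} {I : Set ℝ} (m : (t, R1) ∈ D) (m' : (t', R1) ∈ D) (e : |t' - t| ≤ 1)
    (hμ : μ ∈ Icc 0 E) (z : Zs (Un D (R1 + 1)) Prod.fst (fun x => eta M a k g (shr H x)) I μ)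
    (s : uIcc t' t ⊆ I) : ‖pq t' - pq t‖ ≤ K * μ :=
  (h.lp t' t μ E m' m (sz_of h.rg h.sz hμ z s)).trans
    ((mul_le_of_le_one_right (mul_nonneg h.K0 hμ.1) e).trans (h.le hμ.1))

theorem ht {Cp Cj : ℝ} (p0 : 0 ≤ Cp) (j0 : 0 ≤ Cj) (hp : ∀ h φ b q p p' μ,
      Hu M a r1 R1 n h φ b q p p' μ → P354XE.Bd n (P354XE.pb b h - gin p'.1 p'.2) (φ q) (Cp * μ))
    (hj : ∀ v (q : ℝ × ℝ) (y : R4) d, ‖v ⌊2 * y.1⌋ - q‖ ≤ d → ‖v (⌊2 * y.1⌋ + 1) - q‖ ≤ d →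
      P354YI.Jb n (fun z : R4 => sv v z.1 - q) y (Cj * d))
    (a1 : ti + 2 ≤ t) (a2 : (t + 2, R1) ∈ D) (hμ : μ ∈ Icc 0 E)
    (z : Zs (Un D (R1 + 1)) Prod.fst (fun x => eta M a k g (shr H x)) (Icc (t - 1) (t + 1)) μ)
    (ξ : ℂ × ℂ) (an : An (wb R1 (lft y) t, R1 - 1 / 8, ξ)) :
    Ht M a (R1 - 1 / 8) (R1 - 1 / 8) n (gN R1 D y g) (pN R1 D y pq)
      (wb R1 (lft y) t, R1 - 1 / 8, ξ) (pq t) ((Cp + Cj) * (K * μ)) := by
  have m : ∀ s ∈ Icc (t - 1) (t + 1), (s, R1) ∈ D := fun s hs =>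
    h.fat a1 a2 hs ⟨by linarith, le_rfl⟩
  have t0 : t ∈ Icc (t - 1) (t + 1) := ⟨by linarith, by linarith⟩
  have w : ∀ s ∈ Icc (t - 1) (t + 1), ‖pq s - pq t‖ ≤ K * μ := fun s hs =>
    h.lw (m t t0) (m s hs) (abs_le.2 ⟨by linarith [hs.1], by linarith [hs.2]⟩) hμ z
      (uIcc_subset_Icc hs t0)
  have d0 : 0 ≤ K * μ := (norm_nonneg _).trans (w t t0)
  obtain ⟨x, hx, e, u⟩ := h.hit a1 a2 (ξ := ξ) fun e => by
    have := an.1
    simp only [P354XD.nq, e, Prod.fst_zero, Prod.snd_zero, map_zero] at this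
    linarith
  have mx : x ∈ Om D := ⟨hx.1.1, hx.2⟩
  have sx := h.shr_eq hx.1.2.le
  have bx := h.rg.box _ hx.1.1
  obtain ⟨W, lv, hW⟩ := h.lv x mx
  obtain ⟨k1, k2, k3⟩ := h.ny.pt R1 le_rfl x mx hx.1.2.le μ E
    (sz_of h.rg h.sz hμ z (singleton_subset_iff.2 u))
  rw [sx] at hW k1 k3
  have ch := h.cht
  have e4 : y (P354XD.pj x) = P354XD.pj (wb R1 (lft y) t, R1 - 1 / 8, ξ) := by
    rw [← h.pj x (h.sub hx), e]
  have rx := rd_pj (h.r0.trans bx.2.1) hx.2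
  have s2 := h.s2.trans (min_le_left _ _)
  have i := fun s => inv_near (T := {t | (t, R1) ∈ D}) (s := s)
    (fun _ m _ m' => h.lip m m') fun s hs => m s hs
  refine ⟨(h.crude (m t t0)).trans h.s1, e ▸ ch.vac ⟨x, hx, rfl⟩ (by
      rw [ch.dif.left hx]; exact ⟨W, lv.isOpen, hW, lv.met, lv.vac⟩), le_rfl, le_rfl, an, sv_cd _,
    bdm (e4 ▸ hp g y _ _ (pq x.1) (pq t) (K * μ) ⟨rx.symm ▸ bx.2.1.le, rx.symm ▸ hx.1.2.le,
      (k2.trans (h.le h.sz.1)).trans (by linarith), (h.crude (m t t0)).trans (by linarith), w _ u,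
      ⟨mem_of_superset (lv.isOpen.mem_nhds hW) fun _ hy => P354XA.met_bil lv.met hy,
        fun v w => (lv.met.smooth v w).contDiffAt (lv.isOpen.mem_nhds hW)⟩,
      k1.mono le_rfl ((h.le h.sz.1).trans h.s2),
      h.pj x (h.sub hx) ▸ ch.dif_b4.sm _ ⟨_, ⟨x, hx, rfl⟩, rfl⟩,
      mem_of_superset (ch.eqv.shadow.mem_nhds ⟨x, hx, rfl⟩) ?_, bdm k3 le_rfl (h.le hμ.1)⟩) le_rfl
      (by nlinarith), (hj _ _ _ (K * μ) (w _ (i _ ?_)) (w _ (i _ ?_))).mono le_rfl (by nlinarith)⟩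
  rotate_left 2
  · rintro _ ⟨x', hx', rfl⟩
    exact (congrArg _ (h.pj x' (h.sub hx')).symm).trans (ch.b4_a hx')
  all_goals
    have := Int.floor_le (2 * wb R1 (lft y) t)
    have := Int.lt_floor_add_one (2 * wb R1 (lft y) t)
    simp only [P354XD.pj]
    push_cast
    exact abs_le.2 ⟨by linarith, by linarith⟩

end Nd

/-- **NP.** -/
theorem np : NP := by
  intro ny M a r1 R1 ti H n a0 hM h1 h2 h3 hH h4 h5
  have M0 := (abs_nonneg a).trans_lt hM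
  have h0 : 0 < r1 := lt_of_le_of_lt (sub_nonneg.2 (Real.sqrt_le_iff.2
    ⟨M0.le, by nlinarith [sq_nonneg a]⟩)) h1
  obtain ⟨m, Ct, t0, e, e0, ct⟩ := cls_T M a (R1 - 1 / 8) M0 (by linarith)
  obtain ⟨k, C, mC, c1, ny⟩ := ny M a r1 R1 ti H (max n m) a0 hM h1 h2 hH
  obtain ⟨Cp, p0, hp⟩ := push M a R1 m h0
  obtain ⟨Cj, j0, hj⟩ := sv_jb m
  obtain ⟨CL, l1, hl⟩ := P354TS.lift.2 r1 (R1 + 2) h0
  obtain ⟨L, hL⟩ := (isCompact_Icc (a := r1) (b := R1 + 1)).exists_bound_of_continuousOn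
    (hH.continuous_deriv (by simp)).continuousOn
  obtain ⟨K, hK⟩ : ∃ K, K = C (R1 + 2) := ⟨_, rfl⟩
  have K1 : C R1 ≤ K := hK ▸ mC (by linarith)
  have K0 : 0 ≤ K := by linarith [c1 R1]
  have W0 : 0 ≤ Ct * ((Cp + Cj) * K) := by positivity
  obtain ⟨C', c', δ, d0, fin⟩ := npa (r := R1 - 1 / 8) (C := K + Ct * ((Cp + Cj) * K)) (ti := ti) hM
    (by linarith) (by positivity)
  have ev : ∀ B s : ℝ, 0 < s → ∀ᶠ E in 𝓝 (0 : ℝ), B * E < s := fun B s hs =>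
    ContinuousAt.eventually_lt (by fun_prop) continuousAt_const (by simpa using hs)
  obtain ⟨ε, ε0, hε⟩ := Metric.eventually_nhds_iff.1 (((((ev 1 δ d0).and (ev (7 * K) 1 one_pos)).and
    ((ev K _ (half_pos M0)).and (ev K (min (1 / 2) (r1 / 4)) (by positivity)))).and
    ((ev (CL * K) (1 / 64) (by norm_num)).and (ev (CL * K) r1 h0))).and
    ((ev (CL * K * (max L 1 * R1)) (1 / 2) (by norm_num)).and (ev ((Cp + Cj) * K) e e0)))
  refine ⟨k, 12, by norm_num, fun ρ => C ρ + C', mC.add_const _, fun Rs => ?_⟩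
  obtain ⟨E1, E0, ny⟩ := ny Rs
  refine ⟨min E1 (ε / 2), lt_min E0 (half_pos ε0), fun D g E hE e0 he rg lv tb s1 s2 => ?_⟩
  obtain ⟨y, pq, N, lp⟩ := ny D g E ⟨hE.1, hE.2.trans (min_le_left _ _)⟩ rg lv tb s1
  obtain ⟨⟨⟨⟨b1, b2⟩, b3, b4⟩, b5, b6⟩, b7, b8⟩ := hε (y := E) (by
    rw [Real.dist_eq, sub_zero, abs_of_nonneg hE.1]; linarith [hE.2.trans (min_le_right _ _)])
  obtain ⟨bx, pl⟩ := hl (Ds H R1 D) y (K * E) (Ds_open R1 hH.continuous rg.op)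
    (mul_nonneg K0 hE.1) (by linarith) (fun p m => ⟨(rg.box _ m.1).2.1.le, m.2.le⟩) fun x m => by
      have := (N.pt (R1 + 2) (by linarith) (x.1 - H x.2.1, x.2) ⟨m.1.1, m.2⟩ m.1.2.le E E
        (sz_all rg s1)).1
      simp only [shr, sub_add_cancel, ← hK] at this
      exact this.mono (Nat.zero_le _) le_rfl
  have h : Nd M a r1 R1 Rs ti (CL * (K * E)) (max L 1) E K H D g y pq k m C :=
    ⟨⟨rg, hH.differentiable (by simp), h4, h5, fun r m => (hL r m).trans (le_max_left _ _),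
      le_max_right _ _, h0, h2, bx, by linarith, by linarith, by linarith⟩, pl, lv, s1,
      ny_mono N (fun _ => le_rfl) (le_max_right _ _) fun p m => (rg.box p m).1, lp,
      by linarith [c1 R1], K1, b3.le, b4.le⟩
  have up : ∀ {u v : ℝ}, 0 ≤ v → u ≤ K * v → u ≤ (K + Ct * ((Cp + Cj) * K)) * v := fun hv l =>
    l.trans (mul_le_mul_of_nonneg_right (le_add_of_nonneg_right W0) hv)
  obtain ⟨p, f1, f2, f3⟩ := fin E6 (Un D (R1 + 1)) Prod.fst (fun x => (y (pj (shr H x))).1)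
    (fun x => eta M a k g (shr H x)) _ _ _ (sol_KP (gN R1 D y g) (pN R1 D y pq)) e0 E
    (by linarith) {t | (t, R1) ∈ D} (wb R1 (lft y)) pq ⟨he,
    fun t m => ⟨(rg.box _ m).1, fun s hs => rg.down _ m s hs⟩,
    fun x m => ⟨rg_R1 rg m.1.1, h.mem m.1 m.2.2⟩, fun t m t' m' => h.lip m m', fun t m l => by
      have s3 := fun I hI => sz_mono (I' := I) s2 le_rfl (by linarith : R1 ≤ R1 + 1) hI
      have k1 := N.tm R1 le_rfl (t, R1, 1, 1) ⟨m, one_ne⟩ le_rfl e0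
        (s3 _ (Iic_subset_Iic.2 (by linarith)))
      rw [h.shr_eq le_rfl] at k1
      refine ⟨k1.trans ?_, up he.1 ((N.pt R1 le_rfl (t, R1, 1, 1) ⟨m, one_ne⟩ le_rfl e0 e0
        (s3 _ (singleton_subset_iff.2 (by show t ≤ _; linarith)))).2.1.trans (h.le he.1))⟩
      have k2 := (h.le he.1).trans (mul_le_mul_of_nonneg_left he.2 K0)
      nlinarith [mul_nonneg h.K0 he.1, (rg.box _ m).1],
    fun x m _ => ((sz_all (I := univ) rg s1).2.2 x m trivial).1,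
    fun x m l => (s2.2.2 x m (by norm_num; exact l)).1, fun t m => up hE.1 (h.crude m),
    fun t m t' m' l l' μ hμ z => up hμ.1 (h.lw m m' (abs_le.2 ⟨by linarith, by linarith⟩) hμ z
      (uIcc_of_ge l).le), fun t a1 a2 μ hμ z => (ct _ _ _ _ _ (by
        nlinarith [mul_le_mul_of_nonneg_left hμ.2 (mul_nonneg (add_nonneg p0 j0) K0)])
        (h.ht p0 j0 hp hj a1 a2 hμ z)).imp fun _ c => cls_mono c (by
          nlinarith [mul_nonneg K0 hμ.1])⟩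
  have u : ∀ {u v : ℝ}, 0 ≤ v → u ≤ C' * v → u ≤ (C R1 + C') * v := fun hv l =>
    l.trans (mul_le_mul_of_nonneg_right (le_add_of_nonneg_left h.K0) hv)
  exact ⟨y, pq, p, ny_mono N (fun _ => by linarith) (le_max_left _ _) fun p m => (rg.box p m).1,
    u hE.1 f1, fun Q q => u (add_nonneg he.1 q.nn) (f2 Q q), fun x m e A Q a q =>
      u (add_nonneg (a.nn he.1) q.nn) (f3 x.1 (rg_R1 rg m.1) _ (h.mem m (by linarith)) A Q a q)⟩

end Vale.Agent.P354PA
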