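import Vale.Agent.P354PA.Par

/-!
The final parameters from the estimates on windows.
-/

open Set Filter Topology

namespace Vale.Agent.P354PA

open Vale.Agent.P354XG Vale.Agent.P354XR Vale.Agent.P354XD Vale.Agent.P354XI
open Vale.Agent.P354Z Vale.Agent.P354DR

variable {Y : Type} {S : Set Y} {sl tm f : Y → ℝ} {e0 c0 s A Q B : ℝ}

theorem Ta.cut (h : Ta S tm f c0 s Q) (hB : 0 ≤ B) (m : ℕ)
    (k : ∀ y ∈ S, s - m - c0 ≤ tm y → tm y ≤ s - c0 → f y ≤ B) :
    Ta S tm f c0 (s - m) (Q + m * B) := by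
  induction m with
  | zero => simpa using h
  | succ m ih =>
    obtain ⟨n, h0, h1, h2⟩ := ih fun y hy a => k y hy (by push_cast; linarith)
    refine ⟨fun j => Nat.casesOn j B n, fun j => by cases j; exacts [hB, h0 _], fun j => ?_,
      fun y hy j a b => ?_⟩
    · cases j with
      | zero => have := h.nn; simp only [Finset.sum_range_zero]; positivity
      | succ j =>
        rw [Finset.sum_range_succ']
        show ∑ k ∈ Finset.range j, n k + B ≤ _
        push_cast; linarith [h1 j]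
    · cases j with
      | zero => exact k y hy (by simpa using a) (by push_cast at b; linarith [m.cast_nonneg (α := ℝ)])
      | succ j => exact h2 y hy j (by push_cast at a; linarith) (by push_cast at b; linarith)

theorem Pa.near (h : Pa S tm f e0 c0 s A) (hA : 0 ≤ A) {y : Y} (hy : y ∈ S) {m : ℕ}
    (a : s - m ≤ tm y) (b : tm y ≤ s + c0) : f y ≤ (2 ^ m * A) ^ 2 := by
  refine (h.2 y hy b).trans ?_
  rw [mul_comm, ← Real.rpow_natCast 2 m]
  gcongr
  · norm_num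
  · linarith

theorem Pa.early (h : Pa S tm f e0 c0 s A) (hA : 0 ≤ A) {s' : ℝ} {m : ℕ} (a : s - m ≤ s')
    (b : s' ≤ s) : Pa S tm f e0 c0 s' (2 ^ m * A) := by
  refine (h.tr (D := 1) (b := 0) hA zero_le_one le_rfl (by simp) (by linarith)
    fun y hy _ => ⟨y, hy, by simp, by simp⟩).mono (by positivity) ?_
  rw [one_mul, ← Real.rpow_natCast 2 m]
  gcongr
  · norm_num
  · linarith

theorem cls_mono {O : Set E6} {G : GHP (Sm (on O))} {r t M a η η' : ℝ} {p : Pm (Sm (on O))}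
    (h : Cls G r t p M a η) (e : η ≤ η') : Cls G r t p M a η' :=
  ⟨h.is, h.pM, h.pa, h.sph, fun ξ x i => ⟨(h.bd ξ x i).1.trans e, (h.bd ξ x i).2.trans e⟩⟩

/-- The root of f is at most μ on the slices with the times in I. -/
def Zs (S : Set Y) (sl f : Y → ℝ) (I : Set ℝ) (μ : ℝ) : Prop := ∀ y ∈ S, sl y ∈ I → f y ≤ μ ^ 2

/-- The slices have the times sl in T; tm is the time of the new chart, and ω t is its value at
the base point of the slice t. -/
structure Wd (S : Set Y) (sl tm f : Y → ℝ) {O : Set E6} (G : GHP (Sm (on O))) (r M0 a0 C ti e0 E : ℝ)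
    (T : Set ℝ) (ω : ℝ → ℝ) (pq : ℝ → ℝ × ℝ) : Prop where
  pos : 0 ≤ e0 ∧ e0 ≤ E
  T1 : ∀ t ∈ T, ti < t ∧ Ioc ti t ⊆ T
  mem : ∀ y ∈ S, sl y ∈ T ∧ |tm y - ω (sl y)| ≤ 3
  lip : ∀ t ∈ T, ∀ t' ∈ T, |ω t' - ω t - (t' - t)| ≤ |t' - t| / 4
  bot : ∀ t ∈ T, t ≤ ti + 6 → |ω t - t| ≤ 1 ∧ ‖pq t - (M0, a0)‖ ≤ C * e0
  all : Zs S sl f univ E
  ini : Zs S sl f (Iic (ti + 24)) e0
  crude : ∀ t ∈ T, ‖pq t - (M0, a0)‖ ≤ C * E
  lw : ∀ t ∈ T, ∀ t' ∈ T, t ≤ t' → t' ≤ t + 1 → ∀ μ ∈ Icc 0 E, Zs S sl f (Icc t t') μ →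
    ‖pq t' - pq t‖ ≤ C * μ
  dw : ∀ t, ti + 2 ≤ t → t + 2 ∈ T → ∀ μ ∈ Icc 0 E, Zs S sl f (Icc (t - 1) (t + 1)) μ →
    ∃ p, Cls G r (ω t) p (pq t).1 (pq t).2 (C * μ)

/-- The good times. -/
def T2 (ti : ℝ) (T : Set ℝ) : Set ℝ := {t | ti + 2 ≤ t ∧ t + 2 ∈ T}

namespace Wd
variable {O : Set E6} {G : GHP (Sm (on O))} {r M0 a0 C ti E : ℝ} {T : Set ℝ} {ω : ℝ → ℝ}
  {pq : ℝ → ℝ × ℝ} (h : Wd S sl tm f G r M0 a0 C ti e0 E T ω pq) {t t' : ℝ}
include h

theorem down (ht : t ∈ T) (a : ti < t') (b : t' ≤ t) : t' ∈ T := (h.T1 t ht).2 ⟨a, b⟩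

theorem inc (ht : t ∈ T) (ht' : t' ∈ T) (a : t ≤ t') :
    3 / 4 * (t' - t) ≤ ω t' - ω t ∧ ω t' - ω t ≤ 5 / 4 * (t' - t) := by
  have := h.lip t ht t' ht'
  rw [abs_of_nonneg (sub_nonneg.2 a)] at this
  constructor <;> linarith [(abs_le.1 this).1, (abs_le.1 this).2]

theorem zs_min {I : Set ℝ} {μ : ℝ} (z : Zs S sl f I μ) : Zs S sl f I (min μ E) := fun y hy a => by
  rcases min_cases μ E with e | e <;> rw [e.1]
  exacts [z y hy a, h.all y hy trivial]

theorem E0 : 0 ≤ E := h.pos.1.trans h.pos.2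

theorem t2 (a : t ∈ T2 ti T) : t ∈ T := h.down a.2 (by linarith [a.1]) (by linarith)

theorem oc : (ω '' T2 ti T).OrdConnected := by
  have c : (T2 ti T).OrdConnected := ⟨fun x hx y hy z hz =>
    ⟨hx.1.trans hz.1, h.down hy.2 (by linarith [hx.1, hz.1]) (by linarith [hz.2])⟩⟩
  refine (c.isPreconnected.image ω (LipschitzOnWith.continuousOn (K := 2)
    (LipschitzOnWith.of_dist_le_mul fun x hx y hy => ?_))).ordConnected
  have := h.lip y (h.t2 hy) x (h.t2 hx)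
  have := abs_sub_abs_le_abs_sub (ω x - ω y) (x - y)
  simp only [Real.dist_eq, NNReal.coe_ofNat]
  linarith [abs_nonneg (x - y)]

theorem inv (a : t ∈ T2 ti T) : Function.invFunOn ω (T2 ti T) (ω t) = t := by
  refine InjOn.leftInvOn_invFunOn (fun x hx y hy e => ?_) a
  rcases le_total x y with l | l
  · linarith [(h.inc (h.t2 hx) (h.t2 hy) l).1]
  · linarith [(h.inc (h.t2 hy) (h.t2 hx) l).1]

theorem win (ht : t ∈ T) (hp : Pa S tm f e0 12 s A) (hs : |s - ω t| ≤ 3) :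
    Zs S sl f (Icc (t - 4) (t + 1)) (2 ^ 11 * A) := fun y hy a => by
  obtain ⟨b, c⟩ := h.mem y hy
  obtain ⟨c1, c2⟩ := abs_le.1 c
  obtain ⟨s1, s2⟩ := abs_le.1 hs
  rcases le_total t (sl y) with l | l
  · have := h.inc ht b l
    exact hp.near (hp.nn h.pos.1) hy (by push_cast; linarith) (by linarith [a.2])
  · have := h.inc b ht l
    exact hp.near (hp.nn h.pos.1) hy (by push_cast; linarith [a.1]) (by linarith)

theorem trk (hC : 0 ≤ C) : Trk G r M0 a0 (C * 2 ^ 11) (C * E) (Pa S tm f e0 12) (ω '' T2 ti T)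
    (fun s => (pq (Function.invFunOn ω (T2 ti T) s)).1)
    fun s => (pq (Function.invFunOn ω (T2 ti T) s)).2 := by
  rintro _ ⟨t, ht, rfl⟩
  simp only [h.inv ht]
  have c := h.crude t (h.t2 ht)
  refine ⟨(norm_fst_le _).trans c, (norm_snd_le _).trans c,
    h.dw t ht.1 ht.2 E ⟨h.E0, le_rfl⟩ fun y hy _ => h.all y hy trivial, fun A hA hp => ?_⟩
  refine (h.dw t ht.1 ht.2 _ ⟨le_min (by positivity) h.E0, min_le_right _ _⟩ (h.zs_min
    fun y hy a => h.win (h.t2 ht) hp (by simp) y hy ⟨by linarith [a.1], a.2⟩)).imp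
    fun p c => cls_mono c ?_
  rw [mul_assoc]
  exact mul_le_mul_of_nonneg_left (min_le_left _ _) hC

theorem step (hC : 0 ≤ C) (ht : t ∈ T) (a : ti + 6 ≤ t) (hp : Pa S tm f e0 12 s A)
    (hs : |s - ω t| ≤ 3) : ‖pq t - pq (t - 4)‖ ≤ 4 * (C * (2 ^ 11 * A)) := by
  have A0 := hp.nn h.pos.1
  have k : ∀ u, t - 4 ≤ u → u + 1 ≤ t → ‖pq (u + 1) - pq u‖ ≤ C * (2 ^ 11 * A) := fun u b c =>
    (h.lw u (h.down ht (by linarith) (by linarith)) _ (h.down ht (by linarith) c) (by linarith)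
      le_rfl _ ⟨le_min (by positivity) h.E0, min_le_right _ _⟩ (h.zs_min fun y hy d =>
        h.win ht hp hs y hy ⟨b.trans d.1, by linarith [d.2]⟩)).trans
      (mul_le_mul_of_nonneg_left (min_le_left _ _) hC)
  have k1 := k (t - 4) le_rfl (by linarith)
  have k2 := k (t - 3) (by linarith) (by linarith)
  have k3 := k (t - 2) (by linarith) (by linarith)
  have k4 := k (t - 1) (by linarith) (by linarith)
  rw [show t - 4 + 1 = t - 3 by ring] at k1
  rw [show t - 3 + 1 = t - 2 by ring] at k2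
  rw [show t - 2 + 1 = t - 1 by ring] at k3
  rw [show t - 1 + 1 = t by ring] at k4
  linarith [norm_sub_le_norm_sub_add_norm_sub (pq t) (pq (t - 1)) (pq (t - 4)),
    norm_sub_le_norm_sub_add_norm_sub (pq (t - 1)) (pq (t - 2)) (pq (t - 4)),
    norm_sub_le_norm_sub_add_norm_sub (pq (t - 2)) (pq (t - 3)) (pq (t - 4))]

theorem tail (hE : E ≤ 1) (hp : Pa S tm f e0 12 s A) (hq : Ta S tm f 12 s Q) :
    Ta S tm f 12 (s - (10 : ℕ)) (Q + (10 : ℕ) * (2 ^ 22 * A)) := by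
  have A0 := hp.nn h.pos.1
  refine hq.cut (by positivity) 10 fun y hy a b => ?_
  have c := hp.near A0 hy (m := 22) (by push_cast at a ⊢; linarith) (by linarith)
  have d := (h.all y hy trivial).trans (pow_le_one₀ h.E0 hE)
  rcases le_total (2 ^ 22 * A) 1 with l | l
  · exact c.trans (by nlinarith [show (0 : ℝ) ≤ 2 ^ 22 * A by positivity])
  · exact d.trans l

end Wd

theorem nrm_le {u : ℝ × ℝ} {x : ℝ} (h : |u.1| + |u.2| ≤ x) : ‖u‖ ≤ x :=
  max_le ((le_add_of_nonneg_right (abs_nonneg _)).trans h)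
    ((le_add_of_nonneg_left (abs_nonneg _)).trans h)

/-- The final parameters; the width of the memory is 12. -/
theorem npa {M0 a0 r C ti : ℝ} (ha : |a0| < M0) (hr : 2 * |a0| < r) (hC : 0 ≤ C) :
    ∃ C' ≥ 1, ∃ δ > 0, ∀ (Y : Type) (S : Set Y) (sl tm f : Y → ℝ) O g F, Sol O g F →
      ∀ e0, ∀ E ≤ δ, ∀ T ω pq, Wd S sl tm f (F.ghp (ge O g)) r M0 a0 C ti e0 E T ω pq →
        ∃ p : ℝ × ℝ, ‖p - (M0, a0)‖ ≤ C' * E ∧
          (∀ Q, Ta S tm f 12 ti Q → ‖p - (M0, a0)‖ ≤ C' * (e0 + Q)) ∧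
          ∀ t ∈ T, ∀ s, |s - ω t| ≤ 3 → ∀ A Q, Pa S tm f e0 12 s A → Ta S tm f 12 s Q →
            ‖pq t - p‖ ≤ C' * (A + Q) := by
  obtain ⟨D, d1, δ, d0, H⟩ := par1 (c0 := 12) (C1 := C * 2 ^ 11) ((abs_nonneg _).trans_lt ha) hr
    (by norm_num) (by positivity)
  have p1 : (0 : ℝ) < 2 ^ (ti + 10) := by positivity
  obtain ⟨P, p2, hP⟩ : ∃ P : ℝ, 0 < P ∧ ∀ s, ti + 1 ≤ s → 2 ^ max (-s) 12 ≤ P :=
    ⟨2 ^ max (-(ti + 1)) 12, by positivity, fun s hs => by gcongr; norm_num⟩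
  obtain ⟨L, l1, l2, l3⟩ : ∃ L : ℝ, 1 ≤ L ∧ C + D * P + D ≤ L ∧ D * C ≤ L :=
    ⟨C + D * P + D + D * C, by nlinarith [mul_nonneg (zero_le_one.trans d1) hC], by
      nlinarith [mul_nonneg (zero_le_one.trans d1) hC], by nlinarith⟩
  have dp : 0 ≤ D * P := by positivity
  have lw : L ≤ 2 * L * (2 ^ (ti + 10) + 2 ^ 27) := by nlinarith
  refine ⟨2 * L * (2 ^ (ti + 10) + 2 ^ 27), l1.trans lw, min 1 (δ / (C + 1)),
    lt_min one_pos (by positivity), fun Y S sl tm f O g F so e0 E hE T ω pq h => ?_⟩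
  have E0 := h.E0
  have e00 := h.pos.1
  have low : ∀ t ∈ T, t ≤ ti + 6 → ∀ s, |s - ω t| ≤ 3 → ∀ A, Pa S tm f e0 12 s A →
      s ≤ ti + 10 ∧ e0 ≤ 2 ^ (ti + 10) * A := fun t ht a s hs A hp => by
    have b : s ≤ ti + 10 := by linarith [(abs_le.1 hs).2, (abs_le.1 (h.bot t ht a).1).2]
    refine ⟨b, hp.1.trans ?_⟩
    rw [mul_comm]
    exact mul_le_mul_of_nonneg_right (by gcongr; norm_num) (hp.nn e00)
  by_cases t0 : ti + 4 ∈ T
  swap
  · refine ⟨(M0, a0), by rw [sub_self, norm_zero]; positivity, fun Q hQ => by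
      rw [sub_self, norm_zero]; have := hQ.nn; positivity, fun t ht s hs A Q hp hq => ?_⟩
    have a : t ≤ ti + 6 := by
      by_contra c
      exact t0 (h.down ht (by linarith) (by linarith))
    have := (low t ht a s hs A hp).2
    have A0 := hp.nn e00
    have q0 := hq.nn
    calc _ ≤ C * e0 := (h.bot t ht a).2
      _ ≤ L * (2 ^ (ti + 10) * (A + Q)) := by gcongr <;> nlinarith
      _ ≤ _ := by nlinarith [mul_nonneg (zero_le_one.trans l1) (add_nonneg A0 q0),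
        mul_nonneg (mul_nonneg (zero_le_one.trans l1) p1.le) (add_nonneg A0 q0)]
  have m0 : ti + 2 ∈ T2 ti T := ⟨le_rfl, by rwa [add_assoc, show (2 : ℝ) + 2 = 4 by norm_num]⟩
  obtain ⟨Mf, af, k1, k2⟩ := H Y S tm f e0 O g F so (C * E) ⟨by positivity, by
    have := (le_div_iff₀ (by positivity)).1 (hE.trans (min_le_right _ _))
    nlinarith⟩ _ _ _ h.oc ⟨_, _, m0, rfl⟩ (h.trk hC)
  have k3 : ∀ t ∈ T2 ti T, ∀ A Q, Pa S tm f e0 12 (ω t) A → Ta S tm f 12 (ω t) Q →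
      ‖pq t - (Mf, af)‖ ≤ D * (A + Q) := fun t ht A Q hp hq => nrm_le (by
    simpa only [h.inv ht, Prod.fst_sub, Prod.snd_sub] using k2 _ ⟨t, ht, rfl⟩ A (hp.nn e00) Q hp hq)
  obtain ⟨b1, b2⟩ := h.bot _ (h.t2 m0) (by linarith)
  obtain ⟨b3, b4⟩ := abs_le.1 b1
  have key : ∀ Q, Ta S tm f 12 (ω (ti + 2)) Q → ‖(Mf, af) - (M0, a0)‖ ≤ L * (e0 + Q) :=
    fun Q hq => by
    have := k3 _ m0 _ Q ((pa_ini e00 fun y hy a => h.ini y hy (le_of_not_gt fun c : ti + 24 < sl y => by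
      linarith [(h.inc (h.t2 m0) (h.mem y hy).1 (by linarith)).1,
        (abs_le.1 (h.mem y hy).2).1])).mono (by positivity)
        (mul_le_mul_of_nonneg_right (hP _ (by linarith)) e00)) hq
    rw [norm_sub_rev] at this
    have := norm_sub_le_norm_sub_add_norm_sub (Mf, af) (pq (ti + 2)) (M0, a0)
    have q0 := hq.nn
    nlinarith [mul_le_mul_of_nonneg_right l2 e00, mul_le_mul_of_nonneg_right l2 q0,
      mul_nonneg hC q0, mul_nonneg dp q0, mul_nonneg (zero_le_one.trans d1) e00]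
  refine ⟨(Mf, af), (nrm_le k1).trans ?_, fun Q hq => (key _ (hq.later (by linarith))).trans ?_,
    fun t ht s hs A Q hp hq => ?_⟩
  · rw [← mul_assoc]; exact mul_le_mul_of_nonneg_right (l3.trans lw) E0
  · have := hq.nn
    nlinarith [mul_nonneg (zero_le_one.trans l1) this, mul_nonneg (zero_le_one.trans l1) e00,
      mul_nonneg (mul_nonneg (zero_le_one.trans l1) p1.le) (add_nonneg e00 this)]
  have A0 := hp.nn e00
  have q0 := hq.nn
  have tl := h.tail (hE.trans (min_le_left _ _)) hp hq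
  have la := mul_nonneg (zero_le_one.trans l1) A0
  have lq := mul_nonneg (zero_le_one.trans l1) q0
  have lp := mul_nonneg (mul_nonneg (zero_le_one.trans l1) p1.le) q0
  have lp' := mul_nonneg (mul_nonneg (zero_le_one.trans l1) p1.le) A0
  rcases le_total t (ti + 6) with a | a
  · obtain ⟨c1, c2⟩ := low t ht a s hs A hp
    have c3 := key _ (tl.later (by push_cast; linarith))
    rw [norm_sub_rev] at c3
    have := norm_sub_le_norm_sub_add_norm_sub (pq t) (M0, a0) (Mf, af)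
    have := (h.bot t ht a).2
    have := mul_le_mul_of_nonneg_left c2 (zero_le_one.trans l1)
    have := mul_le_mul_of_nonneg_right (show C ≤ L by linarith) e00
    push_cast at c3
    nlinarith
  · have m : t - 4 ∈ T2 ti T := ⟨by linarith, h.down ht (by linarith) (by linarith)⟩
    obtain ⟨c1, c2⟩ := h.inc (h.t2 m) ht (by linarith)
    obtain ⟨s1, s2⟩ := abs_le.1 hs
    have c3 := k3 _ m _ _ (hp.early A0 (m := 8) (by push_cast; linarith) (by linarith))
      (tl.later (by push_cast; linarith))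
    have := norm_sub_le_norm_sub_add_norm_sub (pq t) (pq (t - 4)) (Mf, af)
    have := h.step hC ht a hp hs
    have := mul_le_mul_of_nonneg_right (show C ≤ L by linarith) A0
    have := mul_le_mul_of_nonneg_right (show D ≤ L by linarith) A0
    have := mul_le_mul_of_nonneg_right (show D ≤ L by linarith) q0
    push_cast at c3
    nlinarith

end Vale.Agent.P354PA
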