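import Vale.Agent.P354PA.Lim
import Vale.Agent.P354DR.Sum

/-!
The final parameters. Transfer of the memory and of the tail.
-/

open Set Filter Topology

namespace Vale.Agent.P354PA

open Vale.Agent.P354XG Vale.Agent.P354XR Vale.Agent.P354XD Vale.Agent.P354XI
open Vale.Agent.P354Z Vale.Agent.P354DR

section tr
variable {Y Y' : Type} {S : Set Y} {S' : Set Y'} {tm f : Y → ℝ} {tm' f' : Y' → ℝ}
  {e0 e0' c0 c0' t t' A Q b D : ℝ}

theorem Pa.nn (h : Pa S tm f e0 c0 t A) (he : 0 ≤ e0) : 0 ≤ A :=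
  nonneg_of_mul_nonneg_left (he.trans h.1) (by positivity)

/-- The memory along a correspondence which moves the time by at most b. -/
theorem Pa.tr (h : Pa S tm f e0 c0 t A) (hA : 0 ≤ A) (hD : 0 ≤ D) (hb : 0 ≤ b) (he : e0' ≤ D * e0)
    (ht : t' + c0' + b ≤ t + c0)
    (hy : ∀ y' ∈ S', tm' y' ≤ t' + c0' → ∃ y ∈ S, |tm y - tm' y'| ≤ b ∧ f' y' ≤ D ^ 2 * f y) :
    Pa S' tm' f' e0' c0' t' (D * 2 ^ (t - t' + b) * A) := by
  refine ⟨he.trans ((mul_le_mul_of_nonneg_left h.1 hD).trans ?_), fun y' hy' a => ?_⟩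
  · have : (2 : ℝ) ^ t ≤ 2 ^ (t - t' + b) * 2 ^ t' := by
      rw [← Real.rpow_add two_pos]; gcongr; · norm_num
      linarith
    calc D * (A * 2 ^ t) ≤ D * (A * (2 ^ (t - t' + b) * 2 ^ t')) := by gcongr
      _ = _ := by ring
  obtain ⟨y, hs, h1, h2⟩ := hy y' hy' a
  obtain ⟨h3, h4⟩ := abs_le.1 h1
  refine h2.trans ((mul_le_mul_of_nonneg_left (h.2 y hs (by linarith)) (sq_nonneg D)).trans ?_)
  have : (2 : ℝ) ^ (t - tm y) ≤ 2 ^ (t - t' + b) * 2 ^ (t' - tm' y') := by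
    rw [← Real.rpow_add two_pos]; gcongr; · norm_num
    linarith
  calc D ^ 2 * (A * 2 ^ (t - tm y)) ^ 2
      ≤ D ^ 2 * (A * (2 ^ (t - t' + b) * 2 ^ (t' - tm' y'))) ^ 2 := by gcongr
    _ = _ := by ring

/-- The tail along such a correspondence. -/
theorem Ta.tr (h : Ta S tm f c0 t Q) (hD : 0 ≤ D) {m : ℕ} (hm : 2 * b + 2 < m)
    (ht : t - c0 + b ≤ t' - c0')
    (hy : ∀ y' ∈ S', t' - c0' ≤ tm' y' → ∃ y ∈ S, |tm y - tm' y'| ≤ b ∧ f' y' ≤ D * f y) :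
    Ta S' tm' f' c0' t' (D * m * Q) := by
  obtain ⟨n, hn, hs, h⟩ := h
  have p : 0 ≤ t' - c0' - b - (t - c0) := by linarith
  set k0 := ⌊t' - c0' - b - (t - c0)⌋₊
  have k1 : (k0 : ℝ) ≤ _ := Nat.floor_le p
  have k2 : _ < (k0 : ℝ) + 1 := Nat.lt_floor_add_one (t' - c0' - b - (t - c0))
  refine ⟨fun j => D * ∑ i ∈ Finset.range m, n (k0 + i + j), fun j =>
    mul_nonneg hD (Finset.sum_nonneg fun _ _ => hn _), fun k => ?_, fun y' hy' j a c => ?_⟩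
  · rw [← Finset.mul_sum, Finset.sum_comm, mul_assoc]
    refine mul_le_mul_of_nonneg_left ((Finset.sum_le_card_nsmul _ _ Q fun i _ => ?_).trans_eq
      (by simp)) hD
    have := hs (k0 + i + k)
    rw [Finset.sum_range_add] at this
    linarith [Finset.sum_nonneg fun j (_ : j ∈ Finset.range (k0 + i)) => hn j]
  obtain ⟨y, hS, h1, h2⟩ := hy y' hy' (by linarith [j.cast_nonneg (α := ℝ)])
  obtain ⟨h3, h4⟩ := abs_le.1 h1
  have q : 0 ≤ tm y - (t - c0 + k0 + j) := by linarith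
  have d : ⌊tm y - (t - c0 + k0 + j)⌋₊ < m := (Nat.floor_lt q).2 (by linarith)
  refine h2.trans (mul_le_mul_of_nonneg_left (le_trans (h y hS _ ?_ ?_) (Finset.single_le_sum
    (f := fun i => n (k0 + i + j)) (fun _ _ => hn _) (Finset.mem_range.2 d))) hD)
  · push_cast; linarith [Nat.floor_le q]
  · push_cast; linarith [Nat.lt_floor_add_one (tm y - (t - c0 + k0 + j))]

theorem Ta.later (h : Ta S tm f c0 t Q) (ht : t ≤ t') : Ta S tm f c0 t' (3 * Q) := by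
  simpa using h.tr (D := 1) (b := 0) (m := 3) zero_le_one (by norm_num) (by linarith)
    fun y hy _ => ⟨y, hy, by simp, by simp⟩

theorem Pa.sub (h : Pa S tm f e0 c0 t A) {T : Set Y} (hT : T ⊆ S) : Pa T tm f e0 c0 t A :=
  ⟨h.1, fun y hy => h.2 y (hT hy)⟩

/-- The memory at an early time. -/
theorem pa_ini (he : 0 ≤ e0) (h : ∀ y ∈ S, tm y ≤ t + c0 → f y ≤ e0 ^ 2) :
    Pa S tm f e0 c0 t (2 ^ max (-t) c0 * e0) := by
  have k : ∀ x, 0 ≤ max (-t) c0 + x → e0 ≤ 2 ^ max (-t) c0 * e0 * 2 ^ x := fun x hx => by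
    rw [mul_right_comm, ← Real.rpow_add two_pos]
    exact le_mul_of_one_le_left he (Real.one_le_rpow one_le_two hx)
  exact ⟨k t (by linarith [le_max_left (-t) c0]), fun y hy a => (h y hy a).trans
    (pow_le_pow_left₀ he (k _ (by linarith [le_max_right (-t) c0])) 2)⟩

end tr

/-- The unit points of O1 with r ≤ rho. -/
def S1 (E : Est) (ρ : ℝ) : Set E6 := {y | y ∈ E.O1 ∧ nq y = 1 ∧ y.2.1 ≤ ρ}

theorem past_iff (c : Cs) (E : Est) (f : E6 → ℝ) (ρ t A : ℝ) :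
    E.Past c f ρ t A ↔ Pa (S1 E (ρ + 1)) Prod.fst f E.e0 c.c0 t A :=
  and_congr_right fun _ => ⟨fun h y hy => h y hy.1 hy.2.1 hy.2.2, fun h y a b d => h y ⟨a, b, d⟩⟩

theorem tail_iff (c : Cs) (E : Est) (t Q : ℝ) :
    E.Tail c t Q ↔ Ta (S1 E (c.R1 + 4)) Prod.fst (E.eta c.L0) c.c0 t Q :=
  exists_congr fun _ => and_congr_right fun _ => and_congr_right fun _ =>
    ⟨fun h y hy => h y hy.1 hy.2.1 hy.2.2, fun h y a b d => h y ⟨a, b, d⟩⟩

theorem past_of {c : Cs} {E : Est} {f : E6 → ℝ} {ρ t A : ℝ} (hρ : c.R1 + 3 ≤ ρ)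
    (h : E.Past c f ρ t A) : Pa (S1 E (c.R1 + 4)) Prod.fst f E.e0 c.c0 t A :=
  ((past_iff c E f ρ t A).1 h).sub fun _ hy => ⟨hy.1, hy.2.1, by linarith [hy.2.2]⟩

/-- On the times in I the frame is close to Kerr with the parameters (M t, a t): a priori with
the size e, and with the size C1 A for every bound A of the memory. -/
def Trk {O : Set E6} (G : GHP (Sm (on O))) (r M0 a0 C1 e : ℝ) (P : ℝ → ℝ → Prop) (I : Set ℝ)
    (M a : ℝ → ℝ) : Prop :=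
  ∀ t ∈ I, |M t - M0| ≤ e ∧ |a t - a0| ≤ e ∧ (∃ p, Cls G r t p (M t) (a t) e) ∧
    ∀ A ≥ 0, P t A → ∃ p, Cls G r t p (M t) (a t) (C1 * A)

/-- The final parameters, when I is not empty. -/
theorem par1 {M0 a0 r c0 C1 : ℝ} (hM : 0 < M0) (hr : 2 * |a0| < r) (hc : 0 ≤ c0) (hC : 0 ≤ C1) :
    ∃ C ≥ 1, ∃ δ > 0, ∀ (Y : Type) (S : Set Y) (tm f : Y → ℝ) (e0 : ℝ) O g F, Sol O g F →
      ∀ e ∈ Icc 0 δ, ∀ (I : Set ℝ) (M a : ℝ → ℝ), I.OrdConnected → I.Nonempty →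
        Trk (F.ghp (ge O g)) r M0 a0 C1 e (Pa S tm f e0 c0) I M a →
        ∃ Mf af, |Mf - M0| + |af - a0| ≤ C * e ∧ ∀ t ∈ I, ∀ A ≥ 0, ∀ Q, Pa S tm f e0 c0 t A →
          Ta S tm f c0 t Q → |M t - Mf| + |a t - af| ≤ C * (A + Q) := by
  obtain ⟨C, δ, c1, d0, H⟩ := drift hM hr
  obtain ⟨C', c2, H'⟩ := par0 (V := ℝ × ℝ) (C := C * C1 ^ 2) hc (by positivity)
  refine ⟨2 * (C * C1 + C' + 2 * (C + 1) + 1), by nlinarith [mul_nonneg c1 hC], min δ 1,
    lt_min d0 one_pos, fun Y S tm f e0 O g F s e he I M a hI hne h => ?_⟩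
  obtain ⟨pq, H⟩ := H O g F s
  have e1 := he.2.trans (min_le_left _ _)
  have e2 := he.2.trans (min_le_right _ _)
  have H0 := fun t ht => let ⟨a1, a2, ⟨p, a3⟩, _⟩ := h t ht
    H t p _ _ _ (a1.trans e1) (a2.trans e1) he.1 e1 a3
  have m0 : ∀ t ∈ I, ‖((M t, a t) : ℝ × ℝ) - (M0, a0)‖ ≤ e := fun t ht =>
    max_le (h t ht).1 (h t ht).2.1
  have H1 : ∀ t ∈ I, ∀ A ≥ 0, Pa S tm f e0 c0 t A → ‖(M t, a t) - pq t‖ ≤ C * (C1 * A) ∧
      ∀ d, HasDerivAt pq d t → ‖d‖ ≤ C * C1 ^ 2 * A ^ 2 := fun t ht A hA hp => by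
    rcases le_total (C1 * A) e with l | l
    · obtain ⟨p, a3⟩ := (h t ht).2.2.2 A hA hp
      obtain ⟨b1, d, b2, b3⟩ := H t p _ _ _ ((h t ht).1.trans e1) ((h t ht).2.1.trans e1)
        (mul_nonneg hC hA) (l.trans e1) a3
      exact ⟨b1, fun d' hd => by rw [hd.unique b2]; exact b3.trans_eq (by ring)⟩
    · obtain ⟨b1, d, b2, b3⟩ := H0 t ht
      refine ⟨b1.trans (by gcongr), fun d' hd => ?_⟩
      rw [hd.unique b2, mul_assoc, ← mul_pow]
      exact b3.trans (by gcongr; exact he.1)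
  obtain ⟨p, hp, k⟩ := H' Y S tm f e0 I pq _ hI hne
    (isCompact_closedBall ((M0, a0) : ℝ × ℝ) ((C + 1) * e)) (fun t ht => by
      have := (H0 t ht).1
      rw [norm_sub_rev] at this
      rw [mem_closedBall_iff_norm]
      linarith [norm_sub_le_norm_sub_add_norm_sub (pq t) (M t, a t) (M0, a0), m0 t ht])
    fun t ht => (H0 t ht).2.imp fun d hd => ⟨hd.1, fun A hA hp => (H1 t ht A hA hp).2 d hd.1⟩
  rw [mem_closedBall_iff_norm] at hp
  have two : ∀ {u : ℝ × ℝ} {x : ℝ}, ‖u‖ ≤ x → |u.1| + |u.2| ≤ 2 * x := fun {u x} hu => by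
    linarith [show |u.1| ≤ x from (norm_fst_le u).trans hu,
      show |u.2| ≤ x from (norm_snd_le u).trans hu]
  have cc := mul_nonneg c1 hC
  refine ⟨p.1, p.2, (two hp).trans (by nlinarith [he.1]), fun t ht A hA Q h1 h2 => ?_⟩
  have q0 := h2.nn
  rw [mul_assoc]
  refine two (u := (M t, a t) - p) ?_
  rcases le_total A 1 with l | l
  · have := k t ht A hA Q h1 h2
    rw [norm_sub_rev] at this
    have := norm_sub_le_norm_sub_add_norm_sub (M t, a t) (pq t) p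
    have := (H1 t ht A hA h1).1
    have : C' * (A ^ 2 + Q) ≤ C' * (A + Q) := by gcongr; nlinarith
    nlinarith [mul_nonneg cc q0]
  · have := norm_sub_le_norm_sub_add_norm_sub (M t, a t) (M0, a0) p
    rw [norm_sub_rev] at hp
    have := m0 t ht
    have : (C + 1) * e ≤ C + 1 := mul_le_of_le_one_right (by linarith) e2
    have : 1 ≤ A + Q := by linarith
    nlinarith

/-- PAR. The times in I are at least t0, and up to t0 + c0 everything has the size e0. -/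
theorem par {M0 a0 r c0 C1 t0 : ℝ} (ha : |a0| < M0) (hr : 2 * |a0| < r) (hc : 0 ≤ c0)
    (hC : 0 ≤ C1) :
    ∃ C ≥ 1, ∃ δ > 0, ∀ (Y : Type) (S : Set Y) (tm f : Y → ℝ) (e0 : ℝ) O g F, Sol O g F →
      0 ≤ e0 → (∀ y ∈ S, tm y ≤ t0 + c0 → f y ≤ e0 ^ 2) →
      ∀ e ∈ Icc 0 δ, ∀ (I : Set ℝ) (M a : ℝ → ℝ), I.OrdConnected → (I.Nonempty → t0 ∈ I) →
        |M t0 - M0| + |a t0 - a0| ≤ C1 * e0 →
        Trk (F.ghp (ge O g)) r M0 a0 C1 e (Pa S tm f e0 c0) I M a →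
        ∃ Mf af, (|af| < Mf ∧ Mf ≤ 5 / 4 * M0) ∧ |Mf - M0| + |af - a0| ≤ C * e ∧
          (∀ Q, Ta S tm f c0 t0 Q → |Mf - M0| + |af - a0| ≤ C * (e0 + Q)) ∧
          (∀ t ≤ t0, ∀ A Q, e0 ≤ A * 2 ^ t → Ta S tm f c0 t Q →
            |Mf - M0| + |af - a0| ≤ C * (A + Q)) ∧
          ∀ t ∈ I, ∀ A Q, Pa S tm f e0 c0 t A → Ta S tm f c0 t Q →
            |M t - Mf| + |a t - af| ≤ C * (A + Q) := by
  have hM : 0 < M0 := (abs_nonneg _).trans_lt ha
  obtain ⟨C, c1, δ, d0, H⟩ := par1 hM hr hc hC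
  set D := (C * 2 ^ max (-t0) c0 + C1 + C) with hD
  have p1 : (0 : ℝ) < 2 ^ max (-t0) c0 := by positivity
  have p2 : (0 : ℝ) < 2 ^ t0 := by positivity
  have D1 : C ≤ D := by nlinarith
  have m0 : 0 < min ((M0 - |a0|) / 2) (M0 / 4) := lt_min (by linarith) (by linarith)
  refine ⟨D * (2 ^ t0 + 3), by nlinarith, min δ (min ((M0 - |a0|) / 2) (M0 / 4) / C),
    lt_min d0 (by positivity), fun Y S tm f e0 O g F s h0 hi e he I M a hI ht0 hp h => ?_⟩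
  have D2 : D ≤ D * (2 ^ t0 + 3) := by nlinarith
  have main : ∃ Mf af, |Mf - M0| + |af - a0| ≤ C * e ∧
      (∀ Q, Ta S tm f c0 t0 Q → |Mf - M0| + |af - a0| ≤ D * (e0 + Q)) ∧
      ∀ t ∈ I, ∀ A Q, Pa S tm f e0 c0 t A → Ta S tm f c0 t Q →
        |M t - Mf| + |a t - af| ≤ C * (A + Q) := by
    rcases I.eq_empty_or_nonempty with rfl | hne
    · exact ⟨M0, a0, by simpa using mul_nonneg (by linarith) he.1, fun Q hQ => by
        simpa using mul_nonneg (by linarith) (add_nonneg h0 hQ.nn), by simp⟩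
    obtain ⟨Mf, af, k1, k2⟩ := H Y S tm f e0 O g F s e ⟨he.1, he.2.trans (min_le_left _ _)⟩ I M a
      hI hne h
    refine ⟨Mf, af, k1, fun Q hQ => ?_, fun t ht A Q a1 a2 => k2 t ht A (a1.nn h0) Q a1 a2⟩
    have := k2 t0 (ht0 hne) _ (by positivity) Q (pa_ini h0 hi) hQ
    have := abs_sub_le Mf (M t0) M0
    have := abs_sub_le af (a t0) a0
    have := abs_sub_comm Mf (M t0)
    have := abs_sub_comm af (a t0)
    have q0 := hQ.nn
    have : 0 ≤ C * e0 := mul_nonneg (by linarith) h0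
    nlinarith [mul_nonneg (mul_nonneg (zero_le_one.trans c1) p1.le) q0, mul_nonneg hC q0]
  obtain ⟨Mf, af, k1, k2, k3⟩ := main
  have k0 : C * e ≤ min ((M0 - |a0|) / 2) (M0 / 4) := by
    have := he.2.trans (min_le_right _ _)
    rwa [le_div_iff₀' (by linarith)] at this
  have l1 := k0.trans (min_le_left _ _)
  have l2 := k0.trans (min_le_right _ _)
  refine ⟨Mf, af, ⟨?_, ?_⟩, k1.trans (by gcongr; exacts [he.1, D1.trans D2]),
    fun Q hQ => (k2 Q hQ).trans (by gcongr; exact add_nonneg h0 hQ.nn), fun t ht A Q a1 a2 => ?_,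
    fun t ht A Q a1 a2 => (k3 t ht A Q a1 a2).trans (by
      gcongr; exacts [add_nonneg (a1.nn h0) a2.nn, D1.trans D2])⟩
  · linarith [abs_sub_abs_le_abs_sub af a0, neg_abs_le (Mf - M0)]
  · linarith [le_abs_self (Mf - M0), abs_nonneg (af - a0)]
  · have A0 : 0 ≤ A := nonneg_of_mul_nonneg_left (h0.trans a1) (by positivity)
    have : A * 2 ^ t ≤ A * 2 ^ t0 := by gcongr; norm_num
    refine (k2 _ (a2.later ht)).trans ?_
    rw [mul_assoc]
    refine mul_le_mul_of_nonneg_left ?_ (by linarith)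
    nlinarith [a2.nn]

end Vale.Agent.P354PA
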