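import Vale.Agent.P354XD.GrC

/-!
The frame of Kerr with parameters which depend on the time: the algebra.
-/

set_option linter.unusedSimpArgs false

namespace Vale.Agent.P354PA

open Vale.Agent.P354XG Vale.Agent.P354XG.Geo Vale.Agent.P354XR Vale.Agent.P354XD
open Vale.Agent.P354XD.Fr
open Vale.Agent.P354DR (dd)

variable {A : Type} [CommRing A] [Algebra ℂ A]

/-- Other fields T and R. -/
def upd (k : KC A) (T R : P354XG.Der A) : KC A := { k with T := T, R := R }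

theorem upd_w {k : KC A} (h : k.Is) {T R : P354XG.Der A} (cT : ∀ f, k.c (T f) = T (k.c f))
    (cR : ∀ f, k.c (R f) = R (k.c f)) (HT : ∀ f, k.H (T f) = T (k.H f))
    (HR : ∀ f, k.H (R f) = R (k.H f)) (BT : ∀ f, k.B (T f) = T (k.B f))
    (BR : ∀ f, k.B (R f) = R (k.B f)) (f : A) :
    k.c ((upd k T R).th f) = (upd k T R).th (k.c f) ∧
    k.c ((upd k T R).tp f) = (upd k T R).tp (k.c f) ∧
    k.c ((upd k T R).et f) = (upd k T R).ep (k.c f) ∧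
    k.H ((upd k T R).th f) = (upd k T R).th (k.H f) + 1 * (upd k T R).th f ∧
    k.H ((upd k T R).tp f) = (upd k T R).tp (k.H f) + -1 * (upd k T R).tp f ∧
    k.H ((upd k T R).et f) = (upd k T R).et (k.H f) + 1 * (upd k T R).et f ∧
    k.B ((upd k T R).et f) = (upd k T R).et (k.B f) + -1 * (upd k T R).et f := by
  refine ⟨?_, ?_, ?_, ?_, ?_, ?_, ?_⟩ <;>
    simp only [upd, KC.th, KC.tp, KC.et, KC.ep, KC.z, KC.zb, KC.ee, KC.De, KC.W, KC.V_ap, D_add,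
      D_sub, D_mul, D_neg, D_num, D_zero, D_ii, map_mul, map_add, map_sub, map_neg, map_zero,
      map_ofNat, h.tab, cT, cR, HT, HR, BT, BR, h.c_P, h.c_Q, h.c_H, h.c_B, h.H_P, h.H_Q, h.B_P,
      h.B_Q, h.B_H] <;> ring

variable {K : Hp A} {p p' : Pm A}

/-- Parameters which depend on the time. -/
structure Pw (K : Hp A) (p : Pm A) : Prop where
  ca : K.c p.a = p.a
  cM : K.c p.M = p.M
  da : ∀ i, i ≠ 0 → K.d i p.a = 0
  dM : ∀ i, i ≠ 0 → K.d i p.M = 0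
  h1 : p.h1 = 1
  j1 : p.j1 = 0
  hg : p.sg * (K.z 1 * K.z 1 + p.a * p.a * K.kc.x * K.kc.x) = 1

theorem Pw.is (q : Pw K p) (h : K.Is) : (upd (kk K p) 0 (K.d 1)).Is := by
  have u : ∀ {f}, (∀ i, i ≠ 0 → K.d i f = 0) → K.P f = 0 ∧ K.H f = 0 := fun d => by
    simp [Hp.P_ap, Hp.H_ap, d]
  exact { h.kc with
    c_T := fun _ => map_zero _, c_a := q.ca, c_M := q.cM, R_T := fun _ => D_zero _
    P_T := fun _ => D_zero _, H_T := fun _ => D_zero _, T_r := rfl, T_x := rfl, T_s := rfl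
    T_N := rfl, T_a := rfl, T_M := rfl, R_a := q.da 1 (by decide), R_M := q.dM 1 (by decide)
    P_a := (u q.da).1, P_M := (u q.dM).1, H_a := (u q.da).2, H_M := (u q.dM).2, hg := q.hg }

theorem Pw.rw (q : Pw K p) (h : K.Is) (g : Fin 4 → Fin 4 → A) (Γ : Fin 4 → Fin 4 → Fin 4 → A) :
    (frK K p).RW (K.geo g Γ) := by
  have k := h.kc
  have e : ∀ f, (kk K p).R f = K.kc.R f - K.kc.T f := fun f => by
    rw [kk_R, q.h1, q.j1]; ring
  have w := upd_w (q.is h) (T := K.d 0) (R := (kk K p).R) k.c_T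
    (fun f => by rw [e, e, map_sub]; exact congrArg₂ (· - ·) (k.c_R f) (k.c_T f)) k.H_T
    (fun f => by rw [e, e, map_sub]; exact congrArg₂ (· - ·) (k.H_R f) (k.H_T f)) k.B_T
    (fun f => by rw [e, e, map_sub]; exact congrArg₂ (· - ·) (k.B_R f) (k.B_T f))
  have cH : ∀ a, K.H (K.co a) = 0 := fun a => (h.tco a).2.2.2.2.1
  have cB : ∀ a, K.B (K.co a) = 0 := fun a => (h.tco a).2.2.2.2.2
  exact ⟨cv_prj h _ _ fun f => (w f).1, cv_prj h _ _ fun f => (w f).2.1,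
    cv_prj h _ _ fun f => (w f).2.2.1, (dv_prj (fun f => (w f).2.2.2.1) cH).trans (one_smul _ _),
    (dv_prj (fun f => (w f).2.2.2.2.1) cH).trans (neg_one_smul _ _),
    (dv_prj (fun f => (w f).2.2.2.2.2.1) cH).trans (one_smul _ _),
    (dv_prj (fun f => (w f).2.2.2.2.2.2) cB).trans (neg_one_smul _ _)⟩

section near
variable {S S0 : Geo A} {N : Hen S.c} {F0 F1 : Fr A}

/-- The transverse frame of a frame which is close to a principal frame. -/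
theorem full_near1 {O : Ops S.c} (f : O.Fit N) (j : J2 S0 N) (e : Same S S0) (h : S.Is)
    (h0 : S0.Is) (W : F0.WN S0) (r : F1.RW S) (b : Cl N F1 F0) {pi : A} (hp : pi ∈ N.B)
    (p2 : F0.p2 S0 * pi = 1) (p0 : F0.p0 S0 = 0) (p1 : F0.p1 S0 = 0) (p3 : F0.p3 S0 = 0)
    (p4 : F0.p4 S0 = 0) : Ok O S.R F1 ∧ Cl N (F1.full O S.R) F0 := by
  have n : Null S0 F0.l F0.n F0.m F0.mb := W.nl
  have g := j.g0
  obtain ⟨k1, k2, c⟩ := gsF_cl h f (fun a b => (g a b).mem) r b.self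
    ⟨(dot2 g b.l b.l).to n.ll, (dot2 g b.n b.n).to n.nn, (dot2 g b.l b.n).to n.ln,
      (dot2 g b.m b.l).to (n.ml h0), (dot2 g b.m b.n).to (n.mn h0), (dot2 g b.m b.m).to n.mm,
      (dot2 g b.m b.mb).to n.mmb⟩
  obtain ⟨a0, a1, a2, a3, a4⟩ := j.p e h h0 (gsF_wn h r k1 k2).nl W.nl (c.trans b)
  have q := Hen.Cg.refl hp
  obtain ⟨k3, -, -, d⟩ := f3_cl (R := S.R) f (c.trans b) ((a2.mul q).to p2)
    ((a0.mul q).to (by rw [p0, zero_mul])) ((a1.mul q).to (by rw [p1, zero_mul]))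
    ((a3.mul q).to (by rw [p3, zero_mul])) ((a4.mul q).to (by rw [p4, zero_mul]))
  exact ⟨⟨k1, k2, k3⟩, d⟩

end near

variable {g : Fin 4 → Fin 4 → A} {Γ Γ0 : Fin 4 → Fin 4 → Fin 4 → A} {N : Hen K.c}

theorem cl_frK (k : K.Is) (b : HB K N.B) (a : N.Cg p'.a p.a) (M : N.Cg p'.M p.M)
    (s : N.Cg p'.sg p.sg) (h1 : N.Cg p'.h1 p.h1) (j1 : N.Cg p'.j1 p.j1) :
    Cl (S := K.geo g Γ) N (frK K p') (frK K p) := by
  have r : ∀ {x}, x ∈ N.B → N.Cg x x := Hen.Cg.refl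
  have v : ∀ {e1 e2 e3 e4 e5 e6 f1 f2 f3 f4 f5 f6 : A}, N.Cg e1 f1 → N.Cg e2 f2 → N.Cg e3 f3 →
      N.Cg e4 f4 → N.Cv (K.prj ((kk K p').V e1 e2 e3 e4 e5 e6))
        (K.prj ((kk K p).V f1 f2 f3 f4 f5 f6)) := fun a1 a2 a3 a4 d => by
    rw [kk_V, kk_V, k.prj_V, k.prj_V]
    exact ((((a1.sub (a2.mul h1)).mul (r (e0_mem d))).add (a2.mul (r (b.om d)))).add
      ((a3.sub ((a2.mul j1).mul (r (mul_mem ii_mem b.s)))).mul (r (mul_mem b.z1 (b.mub d))))).add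
      ((a4.add ((a2.mul j1).mul (r (mul_mem ii_mem b.sb)))).mul (r (mul_mem b.z1 (b.mu d))))
  have t := Hen.cg_num (N := N) 2
  have o := r (zero_mem _)
  have ia := (r ii_mem).mul a
  have z := s.mul ((r b.z1).add (ia.mul (r b.x)))
  have zb := s.mul ((r b.z1).sub (ia.mul (r b.x)))
  have rr := (r b.z1).mul (r b.z1)
  exact ⟨v (((t.mul (r b.N)).mul s).mul (rr.add (a.mul a)))
      (((r b.N).mul s).mul ((rr.sub ((t.mul M).mul (r b.z1))).add (a.mul a)))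
      (((ia.mul (r b.N)).mul s).mul (r b.s)) (((ia.mul (r b.N)).mul s).mul (r b.sb)).neg,
    v o (r b.Ni).neg o o, v ((ia.mul (r b.s)).mul zb) o o zb, v ((ia.mul (r b.sb)).mul z).neg o z o⟩

/-- The construction is defined, and the data are close to the data of Kerr. -/
theorem near_T {O : Ops (K.geo g Γ).c} (f : O.Fit N) (k : K.Is) (q : p.Is K) (w : Pw K p')
    (hb : HB K N.B) (pb : PB p N.B) {Mi : A} (hM : p.M * Mi = 1) (bM : Mi ∈ N.B)
    (h : (K.geo g Γ).Is) {g0 : Fin 4 → Fin 4 → A} (e0 : g0 = gK K p) (h0 : (K.geo g0 Γ0).Is)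
    (d : ∀ i {f f'}, N.Cg f f' → N.Cg (K.d i f) (K.d i f'))
    (hg : ∀ a b, N.Cg (g a b) (g0 a b)) (a : N.Cg p'.a p.a) (M : N.Cg p'.M p.M)
    (h1 : p.h1 = 1) (j1 : p.j1 = 0) : Ok O (K.geo g Γ).R (frK K p') ∧
      ∀ i, dd K p (((frK K p').full O (K.geo g Γ).R).ghp (K.geo g Γ)) i ∈ N.I := by
  subst e0
  have s := HB.stb (g := g) (Γ := Γ) (N := N) hb d
  have r : ∀ {x}, x ∈ N.B → N.Cg x x := Hen.Cg.refl
  obtain ⟨u, e1, e2⟩ := (((r hb.z1).mul (r hb.z1)).add (((a.mul a).mul (r hb.x)).mul (r hb.x))).inv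
    ((mul_comm _ _).trans q.hg) pb.sg
  have eu : p'.sg = u := by linear_combination p'.sg * (-e1) + u * w.hg
  have c := cl_frK (g := g) (Γ := Γ) k hb a M (eu ▸ e2) (by rw [h1, w.h1]; exact Hen.cg_one)
    (by rw [j1, w.j1]; exact r (zero_mem _))
  have e := ghp_frK k q h0
  obtain ⟨a0, a1, a2, a3, a4⟩ := (frK K p).ghp_P (K.geo (gK K p) Γ0)
  rw [e] at a0 a1 a2 a3 a4
  have z3 : ((kk K p).z * (K.z 1 - ii A * p.a * K.kc.x)) ^ 3 = 1 :=
    (congrArg (· ^ 3) (kk_is k q).z_ze).trans (one_pow _)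
  obtain ⟨o, c'⟩ := full_near1 f (s.j2 (S0 := K.geo (gK K p) Γ0) hg) same_geo h h0 (frK_wn k q Γ0) (w.rw k g Γ) c
    (pi := -(hf A * Mi * (K.z 1 - ii A * p.a * K.kc.x) ^ 3)) (neg_mem (mul_mem (mul_mem hf_mem bM)
      (pow_mem (sub_mem hb.z1 (mul_mem (mul_mem ii_mem pb.a) hb.x)) 3))) (by
      rw [← a2]
      change -(2 * p.M * (kk K p).z * (kk K p).z * (kk K p).z) * _ = 1
      linear_combination two_hf (A := A) + 2 * hf A * hM + 2 * hf A * p.M * Mi * z3)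
    a0.symm a1.symm a3.symm a4.symm
  exact ⟨o, fun i => (((ghp_K s k q rfl h h0 hg (full_wn h (w.rw k g Γ) o).1.nl c').gcl k hb
    (P354CV.spn_kerr k) c').dat hb pb i).2⟩

end Vale.Agent.P354PA
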